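import Mathlib

/-! The exponential homomorphism of a locally nilpotent derivation of a polynomial ring,
the degree it defines, and the Jacobian bound on that degree. -/

namespace Vale.Agent.P295.Disproof.Exp

open Polynomial

abbrev R4 := MvPolynomial (Fin 4) ℂ

/-- A derivation applied coefficientwise. -/
noncomputable def mapC (δ : Derivation ℂ R4 R4) (p : R4[X]) : R4[X] :=
  ∑ n ∈ p.support, monomial n (δ (p.coeff n))

lemma coeff_mapC (δ : Derivation ℂ R4 R4) (p : R4[X]) (n : ℕ) :
    (mapC δ p).coeff n = δ (p.coeff n) := by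
  classical
  simp only [mapC, finsetSum_coeff, coeff_monomial, Finset.sum_ite_eq']
  split_ifs with h
  · rfl
  · simp [Polynomial.notMem_support_iff.mp h]

lemma mapC_add (δ : Derivation ℂ R4 R4) (p q : R4[X]) :
    mapC δ (p + q) = mapC δ p + mapC δ q := by
  ext1 n; simp [coeff_mapC]

lemma mapC_mul (δ : Derivation ℂ R4 R4) (p q : R4[X]) :
    mapC δ (p * q) = mapC δ p * q + p * mapC δ q := by
  ext1 n
  simp only [coeff_mapC, coeff_add, coeff_mul, map_sum, δ.leibniz, smul_eq_mul,
    ← Finset.sum_add_distrib]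
  exact Finset.sum_congr rfl fun x _ => by ring

lemma mapC_C (δ : Derivation ℂ R4 R4) (c : R4) : mapC δ (C c) = C (δ c) := by
  ext1 n; rcases n with _ | n <;> simp [coeff_mapC]

variable (δ : Derivation ℂ R4 R4) (hn : ∀ f, ∃ n, δ^[n] f = 0)

include hn in
lemma exists_bound (f : R4) : ∃ N, ∀ n, N ≤ n → δ^[n] f = 0 := by
  obtain ⟨N, hN⟩ := hn f
  refine ⟨N, fun n h => ?_⟩
  obtain ⟨k, rfl⟩ := Nat.exists_eq_add_of_le h
  rw [add_comm, Function.iterate_add_apply, hN]
  exact iterate_map_zero δ k

/-- The truncated exponential series of `f`. -/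
noncomputable def series (f : R4) : R4[X] :=
  ∑ n ∈ Finset.range ((exists_bound δ hn f).choose),
    monomial n ((n.factorial : ℂ)⁻¹ • δ^[n] f)

lemma coeff_series (f : R4) (n : ℕ) :
    (series δ hn f).coeff n = (n.factorial : ℂ)⁻¹ • δ^[n] f := by
  classical
  simp only [series, finsetSum_coeff, coeff_monomial, Finset.sum_ite_eq', Finset.mem_range]
  split_ifs with h
  · rfl
  · rw [(exists_bound δ hn f).choose_spec n (not_lt.mp h), smul_zero]

/-- The exponential homomorphism `f ↦ ∑ tⁿ δⁿ f / n!`. -/
noncomputable def phi : R4 →ₐ[ℂ] R4[X] :=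
  MvPolynomial.aeval fun i => series δ hn (MvPolynomial.X i)

lemma derivative_phi (f : R4) : derivative (phi δ hn f) = mapC δ (phi δ hn f) := by
  induction f using MvPolynomial.induction_on with
  | C c =>
    have : δ (MvPolynomial.C c) = 0 := δ.map_algebraMap c
    simp [phi, IsScalarTower.algebraMap_apply ℂ R4 R4[X], mapC_C, this]
  | add p q hp hq => simp [mapC_add, hp, hq]
  | mul_X p i hp =>
    have hx : derivative (phi δ hn (MvPolynomial.X i)) = mapC δ (phi δ hn (MvPolynomial.X i)) := by
      simp only [phi, MvPolynomial.aeval_X]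
      ext1 n
      rw [coeff_derivative, coeff_series, coeff_mapC, coeff_series, δ.map_smul,
        Function.iterate_succ_apply', mul_comm,
        show ((n : R4) + 1) = algebraMap ℂ R4 (n + 1) by simp, ← Algebra.smul_def, smul_smul]
      congr 1
      have h1 : ((n : ℂ) + 1) ≠ 0 := Nat.cast_add_one_ne_zero n
      rw [Nat.factorial_succ]
      push_cast
      field_simp
    rw [map_mul, derivative_mul, mapC_mul, hp, hx]

lemma coeff_zero_phi (f : R4) : (phi δ hn f).coeff 0 = f := by
  induction f using MvPolynomial.induction_on with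
  | C c => simp [phi, IsScalarTower.algebraMap_apply ℂ R4 R4[X]]
  | add p q hp hq => simp [hp, hq]
  | mul_X p i hp =>
    rw [map_mul, mul_coeff_zero, hp]
    simp [phi, coeff_series]

lemma phi_inj : Function.Injective (phi δ hn) := fun f g h => by
  rw [← coeff_zero_phi δ hn f, h, coeff_zero_phi δ hn g]

/-- The degree defined by `δ`. -/
noncomputable def nu (f : R4) : ℕ := (phi δ hn f).natDegree

lemma phi_ne {f : R4} (hf : f ≠ 0) : phi δ hn f ≠ 0 :=
  fun h => hf (phi_inj δ hn (by simpa using h))

lemma nu_mul {f g : R4} (hf : f ≠ 0) (hg : g ≠ 0) :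
    nu δ hn (f * g) = nu δ hn f + nu δ hn g := by
  simp only [nu, map_mul]
  exact natDegree_mul (phi_ne δ hn hf) (phi_ne δ hn hg)

lemma nu_pow (f : R4) (n : ℕ) : nu δ hn (f ^ n) = n * nu δ hn f := by
  simp only [nu, map_pow, natDegree_pow]

lemma nu_const (c : ℂ) : nu δ hn (MvPolynomial.C c) = 0 := by
  simp [nu, phi, IsScalarTower.algebraMap_apply ℂ R4 R4[X]]

lemma nu_add_le (f g : R4) : nu δ hn (f + g) ≤ max (nu δ hn f) (nu δ hn g) := by
  simp only [nu, map_add]; exact natDegree_add_le _ _

lemma nu_add_left {f g : R4} (h : nu δ hn g < nu δ hn f) :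
    nu δ hn (f + g) = nu δ hn f := by
  simp only [nu, map_add] at *; exact natDegree_add_eq_left_of_natDegree_lt h

lemma nu_neg (f : R4) : nu δ hn (-f) = nu δ hn f := by simp [nu]

lemma map_top_eq_zero (f : R4) : δ ((phi δ hn f).coeff (nu δ hn f)) = 0 := by
  rw [nu, ← coeff_mapC, ← derivative_phi δ hn, coeff_derivative,
    coeff_eq_zero_of_natDegree_lt (Nat.lt_succ_self _), zero_mul]

lemma nu_eq_zero {f : R4} (h : δ f = 0) : nu δ hn f = 0 := by
  by_contra hne
  have hd : derivative (phi δ hn f) = 0 := by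
    have key : ∀ k, δ ((phi δ hn f).coeff k) = 0 := by
      intro k
      induction k with
      | zero => rw [coeff_zero_phi]; exact h
      | succ k ih =>
        have : (phi δ hn f).coeff (k + 1) = 0 := by
          have e : (derivative (phi δ hn f)).coeff k = 0 := by
            rw [derivative_phi, coeff_mapC, ih]
          rw [coeff_derivative, mul_eq_zero] at e
          exact e.resolve_right (by exact_mod_cast Nat.succ_ne_zero k)
        rw [this, map_zero]
    ext1 k; rw [derivative_phi, coeff_mapC, key, coeff_zero]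
  exact hne (derivative_eq_zero.mp hd)

/-- The Jacobian determinant of four polynomials. -/
noncomputable def jac (f : Fin 4 → R4) : R4 :=
  (Matrix.of fun j i => MvPolynomial.pderiv i (f j)).det

lemma sum_step {S : Type*} [CommRing S] (a y : Fin 4 → S) (x p : S) (m : Fin 4) :
    ∑ k, (a k * x + if k = m then p else 0) * y k = (∑ k, a k * y k) * x + p * y m := by
  simp [add_mul, Finset.sum_add_distrib, Finset.sum_mul, mul_right_comm]

lemma chain (i : Fin 4) (f : R4) : mapC (MvPolynomial.pderiv i) (phi δ hn f) =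
    ∑ k, phi δ hn (MvPolynomial.pderiv k f) *
      mapC (MvPolynomial.pderiv i) (phi δ hn (MvPolynomial.X k)) := by
  induction f using MvPolynomial.induction_on with
  | C c => simp [phi, IsScalarTower.algebraMap_apply ℂ R4 R4[X], mapC_C]
  | add p q hp hq => simp [mapC_add, hp, hq, add_mul, Finset.sum_add_distrib]
  | mul_X p m hp =>
    have e : ∀ k, phi δ hn (MvPolynomial.pderiv k (p * MvPolynomial.X m)) =
        phi δ hn (MvPolynomial.pderiv k p) * phi δ hn (MvPolynomial.X m) +
          if k = m then phi δ hn p else 0 := by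
      intro k
      rw [MvPolynomial.pderiv_mul, map_add, map_mul]
      congr 1
      split_ifs with h
      · rw [h, MvPolynomial.pderiv_X_self, mul_one]
      · rw [MvPolynomial.pderiv_X_of_ne (Ne.symm h), mul_zero, map_zero]
    rw [map_mul, mapC_mul, hp]
    refine Eq.trans ?_ (Finset.sum_congr rfl fun k _ => (congrArg
      (fun z => z * mapC (MvPolynomial.pderiv i) (phi δ hn (MvPolynomial.X k))) (e k)).symm)
    exact (sum_step (fun k => phi δ hn (MvPolynomial.pderiv k p))
      (fun k => mapC (MvPolynomial.pderiv i) (phi δ hn (MvPolynomial.X k)))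
      (phi δ hn (MvPolynomial.X m)) (phi δ hn p) m).symm

lemma det_jac_zero (hδ : δ ≠ 0) (f : Fin 4 → R4) (hf : ∀ j, δ (f j) = 0) : jac f = 0 := by
  have hker : ∀ g : R4, δ g = ∑ i, δ (MvPolynomial.X i) * MvPolynomial.pderiv i g := by
    intro g
    induction g using MvPolynomial.induction_on with
    | C c => simp [show δ (MvPolynomial.C c) = 0 from δ.map_algebraMap c]
    | add p q hp hq => simp [hp, hq, mul_add, Finset.sum_add_distrib]
    | mul_X p m hp =>
      simp only [δ.leibniz, smul_eq_mul, MvPolynomial.pderiv_mul, MvPolynomial.pderiv_X, mul_add,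
        Finset.sum_add_distrib]
      rw [add_comm, hp, Finset.mul_sum]
      congr 1
      · exact Finset.sum_congr rfl fun k _ => by ring
      · rw [Finset.sum_eq_single m]
        · simp; ring
        · intro k _ hk; simp [hk.symm]
        · simp
  apply Matrix.exists_mulVec_eq_zero_iff.mp
  refine ⟨fun i => δ (MvPolynomial.X i), fun h => hδ ?_, ?_⟩
  · exact MvPolynomial.derivation_ext fun i => by simpa using congrFun h i
  · funext j
    simp only [Matrix.mulVec, dotProduct, Matrix.of_apply, Pi.zero_apply]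
    rw [← hf j, hker (f j)]
    exact Finset.sum_congr rfl fun k _ => by ring

lemma nu_jac (hδ : δ ≠ 0) (f : Fin 4 → R4) (hJ : jac f ≠ 0) :
    nu δ hn (jac f) < ∑ j, nu δ hn (f j) := by
  set M : Matrix (Fin 4) (Fin 4) R4[X] :=
    Matrix.of fun j i => mapC (MvPolynomial.pderiv i) (phi δ hn (f j)) with hM
  set A : Matrix (Fin 4) (Fin 4) R4[X] :=
    Matrix.of fun k i => mapC (MvPolynomial.pderiv i) (phi δ hn (MvPolynomial.X k)) with hA
  set s := ∑ j, nu δ hn (f j) with hs
  have e : M.det = phi δ hn (jac f) * A.det := by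
    have : M = (Matrix.of fun j i => MvPolynomial.pderiv i (f j)).map (phi δ hn) * A := by
      refine Matrix.ext fun j i => ?_
      simp [hM, hA, Matrix.mul_apply, chain δ hn i (f j)]
    rw [this, Matrix.det_mul]
    congr 1
    exact (RingHom.map_det (phi δ hn).toRingHom _).symm
  have hA0 : A.det ≠ 0 := by
    intro h
    have : (A.map (Polynomial.constantCoeff)).det = 0 := by
      rw [← RingHom.mapMatrix_apply, ← RingHom.map_det, h, map_zero]
    rw [show A.map (Polynomial.constantCoeff) = 1 from ?_, Matrix.det_one] at this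
    · exact one_ne_zero this
    · refine Matrix.ext fun k i => ?_
      simp [hA, coeff_mapC, coeff_zero_phi, MvPolynomial.pderiv_X, Matrix.one_apply, Pi.single_apply]
  have hdeg : ∀ j i, (M j i).natDegree ≤ nu δ hn (f j) := by
    intro j i
    refine natDegree_le_iff_coeff_eq_zero.mpr fun n h => ?_
    simp [hM, coeff_mapC, coeff_eq_zero_of_natDegree_lt h]
  have hcoef : ∀ σ : Equiv.Perm (Fin 4), (∏ j, M j (σ j)).natDegree ≤ s ∧
      (∏ j, M j (σ j)).coeff s = ∏ j, (M j (σ j)).coeff (nu δ hn (f j)) := by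
    intro σ
    refine ⟨(natDegree_prod_le _ _).trans (Finset.sum_le_sum fun j _ => hdeg j (σ j)), ?_⟩
    simp only [hs, Fin.prod_univ_four, Fin.sum_univ_four]
    rw [coeff_mul_add_eq_of_natDegree_le _ (hdeg 3 (σ 3)),
      coeff_mul_add_eq_of_natDegree_le _ (hdeg 2 (σ 2)),
      coeff_mul_add_eq_of_natDegree_le (hdeg 0 (σ 0)) (hdeg 1 (σ 1))]
    · exact natDegree_mul_le_of_le (hdeg 0 (σ 0)) (hdeg 1 (σ 1))
    · exact natDegree_mul_le_of_le (natDegree_mul_le_of_le (hdeg 0 (σ 0)) (hdeg 1 (σ 1)))
        (hdeg 2 (σ 2))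
  have hMT : M.det = ∑ σ : Equiv.Perm (Fin 4), Equiv.Perm.sign σ • ∏ j, M j (σ j) := by
    rw [← Matrix.det_transpose, Matrix.det_apply]; rfl
  have hle : M.det.natDegree ≤ s := by
    rw [hMT]
    exact natDegree_sum_le_of_forall_le _ _ fun σ _ =>
      (natDegree_smul_le _ _).trans (hcoef σ).1
  have htop : M.det.coeff s = 0 := by
    rw [← det_jac_zero δ hδ (fun j => (phi δ hn (f j)).coeff (nu δ hn (f j)))
      (fun j => map_top_eq_zero δ hn (f j)), hMT]
    simp only [jac]
    rw [← Matrix.det_transpose, Matrix.det_apply, finsetSum_coeff]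
    refine Finset.sum_congr rfl fun σ _ => ?_
    rw [Polynomial.coeff_smul, (hcoef σ).2]
    simp [hM, coeff_mapC]
  have hne : M.det ≠ 0 := by rw [e]; exact mul_ne_zero (phi_ne δ hn hJ) hA0
  have h1 : (phi δ hn (jac f)).natDegree ≤ M.det.natDegree := by
    rw [e, natDegree_mul (phi_ne δ hn hJ) hA0]; omega
  have h2 : M.det.natDegree ≠ s := fun h => hne (leadingCoeff_eq_zero.mp (by
    rw [leadingCoeff, h]; exact htop))
  simp only [nu] at *
  omega

end Vale.Agent.P295.Disproof.Exp
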