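import Mathlib
import Vale.Agent.P295.Disproof.Exp

/-! No nonzero locally nilpotent derivation of `ℂ[a,b,d,T]` kills the relation `relH`. -/

namespace Vale.Agent.P295.Disproof.SemiRigid

open MvPolynomial Exp

noncomputable def va : R4 := X 0
noncomputable def vb : R4 := X 1
noncomputable def vd : R4 := X 2
noncomputable def vT : R4 := X 3

/-- The discriminant of `d r³ - 2 r² - b r - a`. -/
noncomputable def disc : R4 :=
  4 * vb ^ 2 + 4 * vb ^ 3 * vd - 32 * va - 27 * va ^ 2 * vd ^ 2 - 36 * va * vb * vd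

/-- The cubic form evaluated at `(T, disc)`. -/
noncomputable def relH : R4 :=
  vd * vT ^ 3 - 2 * disc * vT ^ 2 - vb * disc ^ 2 * vT - va * disc ^ 3

noncomputable def cP : R4 := 4 + 3 * vb * vd
noncomputable def cU : R4 := -16 - 18 * vb * vd - 27 * va * vd ^ 2
noncomputable def psi : R4 := 3 * vd * vT - 2 * disc

/-- The Hessian covariant. -/
noncomputable def covh : R4 :=
  cP * vT ^ 2 + (2 * vb + 9 * va * vd) * vT * disc + (vb ^ 2 - 6 * va) * disc ^ 2

/-- The cubic covariant. -/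
noncomputable def covw : R4 :=
  (3 * vd * vT ^ 2 - 4 * vT * disc - vb * disc ^ 2) *
      ((2 * vb + 9 * va * vd) * vT + 2 * (vb ^ 2 - 6 * va) * disc) -
    (-2 * vT ^ 2 - 2 * vb * vT * disc - 3 * va * disc ^ 2) *
      (2 * cP * vT + (2 * vb + 9 * va * vd) * disc)

lemma psi_cubed : psi ^ 3 - 3 * cP * psi * disc ^ 2 + cU * disc ^ 3 = 27 * vd ^ 2 * relH := by
  simp only [psi, cP, cU, relH, disc]; ring

lemma hess_eq : cP * psi ^ 2 - cU * psi * disc + cP ^ 2 * disc ^ 2 = 9 * vd ^ 2 * covh := by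
  simp only [covh, psi, cP, cU, disc]; ring

lemma disc_eq : 4 * cP ^ 3 - cU ^ 2 = 27 * vd ^ 2 * disc := by
  simp only [cP, cU, disc]; ring

lemma pd_ofNat (i : Fin 4) (n : ℕ) [n.AtLeastTwo] :
    pderiv i (OfNat.ofNat n : R4) = 0 := by
  rw [← map_ofNat C n]; exact pderiv_C

lemma pd_num (i : Fin 4) : pderiv i (2 : R4) = 0 ∧ pderiv i (3 : R4) = 0 ∧
    pderiv i (4 : R4) = 0 ∧ pderiv i (6 : R4) = 0 ∧ pderiv i (9 : R4) = 0 ∧
    pderiv i (27 : R4) = 0 ∧ pderiv i (32 : R4) = 0 ∧ pderiv i (36 : R4) = 0 :=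
  ⟨pd_ofNat i 2, pd_ofNat i 3, pd_ofNat i 4, pd_ofNat i 6, pd_ofNat i 9, pd_ofNat i 27,
    pd_ofNat i 32, pd_ofNat i 36⟩

lemma det_row (r s t : Fin 4 → R4) :
    Matrix.det (Matrix.of ![r, s, ![0, 0, 1, 0], t]) =
      r 0 * (s 1 * t 3 - s 3 * t 1) - r 1 * (s 0 * t 3 - s 3 * t 0) +
        r 3 * (s 0 * t 1 - s 1 * t 0) := by
  rw [Matrix.det_succ_row_zero]
  simp [Fin.sum_univ_succ, Matrix.det_fin_three, Fin.succAbove]
  ring

lemma jac_eq (f g h : R4) :
    jac ![f, g, vd, h] = Matrix.det (Matrix.of ![fun i => pderiv i f, fun i => pderiv i g,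
      ![0, 0, 1, 0], fun i => pderiv i h]) := by
  unfold jac
  congr 1
  refine Matrix.ext fun j i => ?_
  fin_cases j <;> fin_cases i <;> simp [vd, pderiv_X]

/-- The derivative of `disc` in `a`. -/
noncomputable def discA : R4 := -32 - 54 * va * vd ^ 2 - 36 * vb * vd
/-- The derivative of `disc` in `b`. -/
noncomputable def discB : R4 := 8 * vb + 12 * vb ^ 2 * vd - 36 * va * vd

lemma pd_disc : pderiv 0 disc = discA ∧ pderiv 1 disc = discB ∧ pderiv 3 disc = 0 := by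
  refine ⟨?_, ?_, ?_⟩ <;>
    simp [disc, discA, discB, va, vb, vd, pderiv_X, pd_num, Derivation.leibniz] <;> ring

/-- Partial derivatives of `relH`, the discriminant being held fixed. -/
noncomputable def gT : R4 := 3 * vd * vT ^ 2 - 4 * disc * vT - vb * disc ^ 2
noncomputable def gD : R4 := -2 * vT ^ 2 - 2 * vb * disc * vT - 3 * va * disc ^ 2
noncomputable def hT : R4 := 2 * cP * vT + (2 * vb + 9 * va * vd) * disc
noncomputable def hD : R4 := (2 * vb + 9 * va * vd) * vT + 2 * (vb ^ 2 - 6 * va) * disc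

lemma pd_H : pderiv 0 relH = -disc ^ 3 + gD * discA ∧
    pderiv 1 relH = -(disc ^ 2 * vT) + gD * discB ∧ pderiv 3 relH = gT := by
  obtain ⟨h0, h1, h3⟩ := pd_disc
  refine ⟨?_, ?_, ?_⟩ <;>
    simp [relH, gD, gT, va, vb, vd, vT, pderiv_X, pd_num, Derivation.leibniz, h0, h1, h3] <;> ring

lemma pd_h : pderiv 0 covh = (9 * vd * vT * disc - 6 * disc ^ 2) + hD * discA ∧
    pderiv 1 covh = (3 * vd * vT ^ 2 + 2 * vT * disc + 2 * vb * disc ^ 2) + hD * discB ∧
    pderiv 3 covh = hT := by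
  obtain ⟨h0, h1, h3⟩ := pd_disc
  refine ⟨?_, ?_, ?_⟩ <;>
    simp [covh, hT, hD, cP, va, vb, vd, vT, pderiv_X, pd_num, Derivation.leibniz, h0, h1, h3] <;> ring

/-- Partial derivative of `covw` in the discriminant. -/
noncomputable def wD : R4 :=
  (-4 * vT - 2 * vb * disc) * hD + gT * (2 * (vb ^ 2 - 6 * va)) -
    ((-2 * vb * vT - 6 * va * disc) * hT + gD * (2 * vb + 9 * va * vd))

noncomputable def wA : R4 :=
  gT * (9 * vd * vT - 12 * disc) - (-3 * disc ^ 2 * hT + gD * (9 * vd * disc))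
noncomputable def wB : R4 :=
  -disc ^ 2 * hD + gT * (2 * vT + 4 * vb * disc) -
    (-2 * vT * disc * hT + gD * (6 * vd * vT + 2 * disc))
noncomputable def wT : R4 :=
  (6 * vd * vT - 4 * disc) * hD + gT * (2 * vb + 9 * va * vd) -
    ((-4 * vT - 2 * vb * disc) * hT + gD * (2 * cP))

lemma pd_w : pderiv 0 covw = wA + wD * discA ∧
    pderiv 1 covw = wB + wD * discB ∧ pderiv 3 covw = wT := by
  obtain ⟨h0, h1, h3⟩ := pd_disc
  refine ⟨?_, ?_, ?_⟩ <;>
    simp [covw, wA, wB, wT, wD, hT, hD, gT, gD, cP, va, vb, vd, vT, pderiv_X,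
      pd_num, Derivation.leibniz, h0, h1, h3] <;> ring

lemma jac_hD : jac ![covh, disc, vd, relH] = 6 * covw * psi * vd := by
  obtain ⟨a0, a1, a3⟩ := pd_disc
  obtain ⟨b0, b1, b3⟩ := pd_H
  obtain ⟨c0, c1, c3⟩ := pd_h
  rw [jac_eq, det_row, a0, a1, a3, b0, b1, b3, c0, c1, c3]
  calc _ = -discA * ((3 * vd * vT ^ 2 + 2 * vT * disc + 2 * vb * disc ^ 2) * gT -
          hT * -(disc ^ 2 * vT)) +
        discB * ((9 * vd * vT * disc - 6 * disc ^ 2) * gT - hT * -disc ^ 3) := by ring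
    _ = _ := by
      simp only [covw, psi, discA, discB, gT, hT, cP, disc]
      ring

lemma jac_Dw : jac ![disc, covw, vd, relH] = -36 * covh ^ 2 * psi * vd := by
  obtain ⟨a0, a1, a3⟩ := pd_disc
  obtain ⟨b0, b1, b3⟩ := pd_H
  obtain ⟨c0, c1, c3⟩ := pd_w
  rw [jac_eq, det_row, a0, a1, a3, b0, b1, b3, c0, c1, c3]
  calc _ = discA * (wB * gT - wT * -(disc ^ 2 * vT)) -
        discB * (wA * gT - wT * -disc ^ 3) := by ring
    _ = _ := by
      simp only [covh, psi, wA, wB, wT, discA, discB, gT, gD, hT, hD, cP, disc]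
      ring

lemma ne_of_eval {f : R4} (v : Fin 4 → ℂ) (c : ℂ) (hc : c ≠ 0) (h : eval v f = c) : f ≠ 0 := by
  intro hf; rw [hf, map_zero] at h; exact hc h.symm

lemma vd_ne : vd ≠ 0 := X_ne_zero _
lemma vT_ne : vT ≠ 0 := X_ne_zero _
lemma disc_ne : disc ≠ 0 :=
  ne_of_eval ![1, 0, 0, 0] (-32) (by norm_num) (by simp [disc, va, vb, vd])
lemma cP_ne : cP ≠ 0 := ne_of_eval ![0, 0, 0, 0] 4 (by norm_num) (by simp [cP, vb, vd])
lemma cU_ne : cU ≠ 0 :=
  ne_of_eval ![0, 0, 0, 0] (-16) (by norm_num) (by simp [cU, va, vb, vd])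
lemma psi_ne : psi ≠ 0 :=
  ne_of_eval ![0, 0, 1, 1] 3 (by norm_num) (by simp [psi, disc, va, vb, vd, vT])
lemma covh_ne : covh ≠ 0 :=
  ne_of_eval ![0, 0, 0, 1] 4 (by norm_num) (by simp [covh, cP, disc, va, vb, vd, vT])
lemma covw_ne : covw ≠ 0 :=
  ne_of_eval ![0, 0, 0, 1] 16 (by norm_num) (by simp [covw, cP, disc, va, vb, vd, vT]; norm_num)

variable (δ : Derivation ℂ R4 R4) (hn : ∀ f, ∃ n, δ^[n] f = 0)

lemma nu_scale (c : ℂ) (hc : c ≠ 0) {f : R4} (hf : f ≠ 0) :
    nu δ hn (C c * f) = nu δ hn f := by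
  rw [nu_mul δ hn (by simpa using hc) hf, nu_const, zero_add]

lemma nu_sub_left {f g : R4} (h : nu δ hn g < nu δ hn f) :
    nu δ hn (f - g) = nu δ hn f := by
  rw [sub_eq_add_neg]; exact nu_add_left δ hn (by rwa [nu_neg])

lemma nu_add_right {f g : R4} (h : nu δ hn f < nu δ hn g) :
    nu δ hn (f + g) = nu δ hn g := by
  rw [add_comm]; exact nu_add_left δ hn h

include hn in
/-- The key lemma: `relH` is killed by no nonzero locally nilpotent derivation. -/
theorem no_lnd_kills_relH (hH : δ relH = 0) : δ = 0 := by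
  by_contra hδ
  have n3 : (3 : R4) = C 3 := (map_ofNat C 3).symm
  have hvd := vd_ne
  have hvT := vT_ne
  have hD := disc_ne
  have hP := cP_ne
  have hU := cU_ne
  have hψ := psi_ne
  have hh := covh_ne
  have hw := covw_ne
  set e := nu δ hn vd with he
  set t := nu δ hn vT with ht
  set q := nu δ hn disc with hq
  set p := nu δ hn cP with hp
  set u := nu δ hn cU with hu
  set x := nu δ hn psi with hx
  set m := nu δ hn covh with hm
  set w := nu δ hn covw with hwn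
  have z0 : nu δ hn relH = 0 := nu_eq_zero δ hn hH
  have scale : ∀ (c : ℕ) (f : R4), c ≠ 0 → f ≠ 0 → nu δ hn ((c : R4) * f) = nu δ hn f := by
    intro c f hc hf
    rw [show (c : R4) = C (c : ℂ) from (map_natCast C c).symm]
    exact nu_scale δ hn _ (Nat.cast_ne_zero.mpr hc) hf
  -- the two Jacobian bounds
  have j1 : w + x + e < m + q + e := by
    have hne : (6 : R4) * covw * psi * vd ≠ 0 :=
      mul_ne_zero (mul_ne_zero (mul_ne_zero (by norm_num) hw) hψ) hvd
    have h := nu_jac δ hn hδ ![covh, disc, vd, relH] (by rw [jac_hD]; exact hne)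
    rw [jac_hD, Fin.sum_univ_four, nu_mul δ hn (left_ne_zero_of_mul hne) hvd,
      nu_mul δ hn (mul_ne_zero (by norm_num) hw) hψ,
      show (6 : R4) = ((6 : ℕ) : R4) by norm_num, scale 6 covw (by norm_num) hw] at h
    simp [z0] at h
    omega
  have j2 : 2 * m + x + e < q + w + e := by
    have hne : (-36 : R4) * covh ^ 2 * psi * vd ≠ 0 :=
      mul_ne_zero (mul_ne_zero (mul_ne_zero (by norm_num) (pow_ne_zero _ hh)) hψ) hvd
    have h := nu_jac δ hn hδ ![disc, covw, vd, relH] (by rw [jac_Dw]; exact hne)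
    rw [jac_Dw, Fin.sum_univ_four, nu_mul δ hn (left_ne_zero_of_mul hne) hvd,
      nu_mul δ hn (mul_ne_zero (by norm_num) (pow_ne_zero _ hh)) hψ, neg_mul, nu_neg,
      show (36 : R4) = ((36 : ℕ) : R4) by norm_num, scale 36 _ (by norm_num) (pow_ne_zero _ hh),
      nu_pow] at h
    simp [z0] at h
    omega
  have hxq : x < q := by omega
  -- `3 d T = psi + 2 disc`
  have het : e + t = q := by
    have h1 : nu δ hn (psi + (2 : R4) * disc) = q := by
      have h2 : nu δ hn ((2 : R4) * disc) = q := by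
        rw [show (2 : R4) = ((2 : ℕ) : R4) by norm_num]; exact scale 2 _ (by norm_num) hD
      rw [nu_add_right δ hn (by omega), h2]
    rw [show psi + (2 : R4) * disc = ((3 : ℕ) : R4) * (vd * vT) by simp [psi]; ring,
      scale 3 _ (by norm_num) (mul_ne_zero hvd hvT), nu_mul δ hn hvd hvT] at h1
    exact h1
  -- the depressed cubic
  have hA : nu δ hn (psi ^ 3) = 3 * x := nu_pow δ hn _ _
  have hB : nu δ hn (3 * cP * psi * disc ^ 2) = p + x + 2 * q := by
    rw [show (3 : R4) * cP * psi * disc ^ 2 = ((3 : ℕ) : R4) * (cP * psi * disc ^ 2) by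
      push_cast; ring, scale 3 _ (by norm_num) (mul_ne_zero (mul_ne_zero hP hψ) (pow_ne_zero _ hD)),
      nu_mul δ hn (mul_ne_zero hP hψ) (pow_ne_zero _ hD), nu_mul δ hn hP hψ, nu_pow]
  have hC : nu δ hn (cU * disc ^ 3) = u + 3 * q := by
    rw [nu_mul δ hn hU (pow_ne_zero _ hD), nu_pow]
  have hHne : (relH : R4) ≠ 0 :=
    ne_of_eval ![0, 0, 1, 1] 1 one_ne_zero (by simp [relH, disc, va, vb, vd, vT])
  have hsum : nu δ hn (psi ^ 3 - 3 * cP * psi * disc ^ 2 + cU * disc ^ 3) = 2 * e := by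
    rw [psi_cubed, show (27 : R4) * vd ^ 2 * relH = ((27 : ℕ) : R4) * (vd ^ 2 * relH) by
      push_cast; ring, scale 27 _ (by norm_num) (mul_ne_zero (pow_ne_zero _ hvd) hHne),
      nu_mul δ hn (pow_ne_zero _ hvd) hHne, nu_pow, z0]
    omega
  have hBC : u + 3 * q = p + x + 2 * q := by
    rcases lt_trichotomy (p + x + 2 * q) (u + 3 * q) with h | h | h
    · exfalso
      have h1 : nu δ hn (psi ^ 3 - 3 * cP * psi * disc ^ 2) ≤ max (3 * x) (p + x + 2 * q) := by
        rw [sub_eq_add_neg]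
        refine (nu_add_le δ hn _ _).trans ?_
        rw [nu_neg, hA, hB]
      rw [nu_add_right δ hn (by rw [hC]; omega), hC] at hsum
      omega
    · exact h.symm
    · exfalso
      have h1 : nu δ hn (psi ^ 3 - 3 * cP * psi * disc ^ 2) = p + x + 2 * q := by
        rw [sub_eq_add_neg, nu_add_right δ hn (by rw [nu_neg, hA, hB]; omega), nu_neg, hB]
      rw [nu_add_left δ hn (by rw [hC, h1]; omega), h1] at hsum
      omega
  have hP3 : nu δ hn (4 * cP ^ 3) = 3 * p := by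
    rw [show (4 : R4) = ((4 : ℕ) : R4) by norm_num, scale 4 _ (by norm_num) (pow_ne_zero _ hP),
      nu_pow]
  have hd : 2 * e + q = 3 * p := by
    have h1 : nu δ hn (4 * cP ^ 3 - cU ^ 2) = 3 * p := by
      rw [nu_sub_left δ hn (by rw [hP3, nu_pow]; omega), hP3]
    rw [disc_eq, show (27 : R4) * vd ^ 2 * disc = ((27 : ℕ) : R4) * (vd ^ 2 * disc) by
      push_cast; ring, scale 27 _ (by norm_num) (mul_ne_zero (pow_ne_zero _ hvd) hD),
      nu_mul δ hn (pow_ne_zero _ hvd) hD, nu_pow] at h1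
    omega
  have hh2 : 2 * e + m = 2 * p + 2 * q := by
    have h1 : nu δ hn (cP * psi ^ 2) = p + 2 * x := by
      rw [nu_mul δ hn hP (pow_ne_zero _ hψ), nu_pow]
    have h2 : nu δ hn (cU * psi * disc) = u + x + q := by
      rw [nu_mul δ hn (mul_ne_zero hU hψ) hD, nu_mul δ hn hU hψ]
    have h3 : nu δ hn (cP ^ 2 * disc ^ 2) = 2 * p + 2 * q := by
      rw [nu_mul δ hn (pow_ne_zero _ hP) (pow_ne_zero _ hD), nu_pow, nu_pow]
    have h4 : nu δ hn (cP * psi ^ 2 - cU * psi * disc) ≤ max (p + 2 * x) (u + x + q) := by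
      rw [sub_eq_add_neg]
      refine (nu_add_le δ hn _ _).trans ?_
      rw [nu_neg, h1, h2]
    have h5 : nu δ hn (cP * psi ^ 2 - cU * psi * disc + cP ^ 2 * disc ^ 2) = 2 * p + 2 * q := by
      rw [nu_add_right δ hn (by rw [h3]; omega), h3]
    rw [hess_eq, show (9 : R4) * vd ^ 2 * covh = ((9 : ℕ) : R4) * (vd ^ 2 * covh) by
      push_cast; ring, scale 9 _ (by norm_num) (mul_ne_zero (pow_ne_zero _ hvd) hh),
      nu_mul δ hn (pow_ne_zero _ hvd) hh, nu_pow] at h5
    omega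
  omega

end Vale.Agent.P295.Disproof.SemiRigid
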