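import Vale.Agent.P295.Disproof.Embed

/-!
# From slices and a nontrivial fibration to a stable coordinate that is no coordinate
-/

namespace Vale.Agent.P295.Disproof

open MvPolynomial

theorem fibD_isLND (s3 : R3) (i : Fin 3) : IsLND (fibD s3 i) := by
  refine isLND_of_adjoin _ (MvPolynomial.adjoin_range_X (R := Ce)) ?_
  have hinl : ∀ q : MvPolynomial (Fin 3) Ce, rename Sum.inl q ∈ nilSub (fibD s3 i) := fun q => by
    induction q using MvPolynomial.induction_on with
    | C c =>
      rw [rename_C, ← MvPolynomial.algebraMap_eq]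
      exact Subalgebra.algebraMap_mem _ c
    | add p q hp hq => rw [map_add]; exact add_mem hp hq
    | mul_X p j hp =>
      rw [map_mul, rename_X]
      refine mul_mem hp ⟨2, ?_⟩
      rw [Function.iterate_succ_apply, fibD_inl, Function.iterate_one]
      split_ifs
      · exact fibD_eps_pow s3 i 8
      · exact map_zero _
  rintro _ ⟨k, rfl⟩
  rcases k with j | a
  · have h := hinl (X j)
    rw [rename_X] at h
    exact h
  · obtain ⟨q, (hq : rename Sum.inl q = _)⟩ := bigPhi_mem s3 a
    obtain ⟨n, hn⟩ := hinl (pderiv i q)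
    refine ⟨n + 1, ?_⟩
    rw [Function.iterate_succ_apply, fibD_inr, ← hq, pderiv_rename Sum.inl_injective,
      iterate_map_neg, hn, neg_zero]

theorem fibD_comm (s3 : R3) (i j : Fin 3) (b : Pe) :
    fibD s3 i (fibD s3 j b) = fibD s3 j (fibD s3 i b) := by
  have : ⁅fibD s3 i, fibD s3 j⁆ = 0 := MvPolynomial.derivation_ext fun k => by
    rw [Derivation.commutator_apply, Derivation.zero_apply, sub_eq_zero]
    rcases k with l | a
    · simp only [fibD_inl]
      split_ifs <;> simp only [fibD_eps_pow, map_zero]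
    · obtain ⟨q, (hq : rename Sum.inl q = _)⟩ := bigPhi_mem s3 a
      have hpp : pderiv i (pderiv j q) = pderiv j (pderiv i q) := by
        ext m : 1
        simp only [coeff_pderiv]
        by_cases h : i = j
        · subst h; rfl
        · simp [h, Ne.symm h, add_right_comm]
          ring
      rw [fibD_inr, fibD_inr, ← hq, pderiv_rename Sum.inl_injective,
        pderiv_rename Sum.inl_injective, map_neg, map_neg, fibD_rename_inl, fibD_rename_inl,
        pderiv_rename Sum.inl_injective, pderiv_rename Sum.inl_injective, hpp]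
  have h := DFunLike.congr_fun this b
  rwa [Derivation.commutator_apply, Derivation.zero_apply, sub_eq_zero] at h

theorem rename_optionEquivLeft {σ : Type} (p : MvPolynomial σ ℂ) :
    optionEquivLeft ℂ σ (rename some p) = Polynomial.C p := by
  induction p using MvPolynomial.induction_on with
  | C c => simp [optionEquivLeft_C]
  | add p q hp hq => simp [hp, hq]
  | mul_X p j hp => simp [hp, optionEquivLeft_X_some]

/-- Isomorphisms of polynomial rings in one variable that fix the variable descend. -/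
theorem nonempty_equiv_of_polynomial {S T : Type} [CommRing S] [CommRing T] [Algebra ℂ S]
    [Algebra ℂ T] (ψ : Polynomial S ≃ₐ[ℂ] Polynomial T) (hψ : ψ Polynomial.X = Polynomial.X) :
    Nonempty (S ≃ₐ[ℂ] T) := by
  let F : S →ₐ[ℂ] T := ((Polynomial.aeval (0 : T)).restrictScalars ℂ).comp
    (ψ.toAlgHom.comp ((Polynomial.CAlgHom : S →ₐ[ℂ] Polynomial S)))
  have hF : ∀ s, F s = (ψ (Polynomial.C s)).eval 0 := fun s => by
    simp [F, Polynomial.coeff_zero_eq_eval_zero]
  refine ⟨AlgEquiv.ofBijective F ⟨(injective_iff_map_eq_zero _).2 fun s hs => ?_, fun t => ?_⟩⟩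
  · obtain ⟨r, hr⟩ := Polynomial.X_dvd_iff.2
      (show (ψ (Polynomial.C s)).coeff 0 = 0 by
        rw [Polynomial.coeff_zero_eq_eval_zero, ← hF, hs])
    have := congrArg ψ.symm hr
    rw [ψ.symm_apply_apply, map_mul, ← hψ, ψ.symm_apply_apply] at this
    have := congrArg (fun p : Polynomial S => p.coeff 0) this
    simpa using this
  · refine ⟨(ψ.symm (Polynomial.C t)).coeff 0, ?_⟩
    rw [hF]
    have h := congrArg ψ (Polynomial.X_mul_divX_add (ψ.symm (Polynomial.C t)))
    rw [map_add, map_mul, hψ, ψ.apply_symm_apply] at h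
    simpa using congrArg (Polynomial.eval 0) h

/-- A failure of cancellation gives a stable coordinate that is no coordinate. -/
theorem stableNotCoordinate_of_cancellation {S : Type} [CommRing S] [Algebra ℂ S] {n : ℕ}
    (hS : IsEmpty (S ≃ₐ[ℂ] MvPolynomial (Fin n) ℂ))
    (h : Nonempty (Polynomial S ≃ₐ[ℂ] MvPolynomial (Fin (n + 1)) ℂ)) : StableNotCoordinate := by
  obtain ⟨ψ⟩ := h
  refine ⟨n + 1, ψ Polynomial.X, ⟨1, le_rfl, ?_⟩, ?_⟩
  · let eb : Fin (n + 1) ⊕ Fin 1 ≃ Option (Fin (n + 1)) :=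
      ((Equiv.refl _).sumCongr (Equiv.equivPUnit.{1, 1} (Fin 1))).trans
        (Equiv.optionEquivSumPUnit.{0, 0} (Fin (n + 1))).symm
    let θ := ((renameEquiv ℂ eb).trans (optionEquivLeft ℂ (Fin (n + 1)))).trans
      ((((Polynomial.mapAlgEquiv ψ.symm).trans
        ((Polynomial.Bivariate.swap (R := S)).restrictScalars ℂ)).trans
        (Polynomial.mapAlgEquiv ψ)).trans (optionEquivLeft ℂ (Fin (n + 1))).symm)
    refine ⟨θ.trans (renameEquiv ℂ eb.symm), eb.symm none, ?_⟩
    have h1 : θ (rename Sum.inl (ψ Polynomial.X)) = X none := by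
      simp only [θ, AlgEquiv.trans_apply, renameEquiv_apply, rename_rename]
      rw [show (⇑eb ∘ Sum.inl) = some from rfl, rename_optionEquivLeft]
      simp [AlgEquiv.symm_apply_eq, optionEquivLeft_X_none, Polynomial.Bivariate.swap_X]
    rw [AlgEquiv.trans_apply, h1, renameEquiv_apply, rename_X]
  · rintro ⟨g, i, hg⟩
    let τ := ((ψ.trans g).trans (renameEquiv ℂ (Equiv.swap i 0))).trans (finSuccEquiv ℂ n)
    have hτ : τ Polynomial.X = Polynomial.X := by
      simp [τ, hg, finSuccEquiv_X_zero]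
    obtain ⟨e⟩ := nonempty_equiv_of_polynomial τ hτ
    exact hS.false e

/-- Either cancellation fails somewhere or the algebra is a polynomial ring. -/
theorem tower_cases {A : Type} [CommRing A] [Algebra ℂ A]
    (h3 : Nonempty (MvPolynomial (Fin 3) A ≃ₐ[ℂ] MvPolynomial (Fin 8) ℂ)) :
    StableNotCoordinate ∨ Nonempty (A ≃ₐ[ℂ] MvPolynomial (Fin 5) ℂ) := by
  let step : ∀ j, MvPolynomial (Fin (j + 1)) A ≃ₐ[ℂ] Polynomial (MvPolynomial (Fin j) A) :=
    fun j => (finSuccEquiv A j).restrictScalars ℂ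
  by_cases c2 : Nonempty (MvPolynomial (Fin 2) A ≃ₐ[ℂ] MvPolynomial (Fin 7) ℂ)
  swap
  · exact Or.inl (stableNotCoordinate_of_cancellation (S := MvPolynomial (Fin 2) A) (n := 7)
      (not_nonempty_iff.1 c2) ⟨(step 2).symm.trans h3.some⟩)
  by_cases c1 : Nonempty (MvPolynomial (Fin 1) A ≃ₐ[ℂ] MvPolynomial (Fin 6) ℂ)
  swap
  · exact Or.inl (stableNotCoordinate_of_cancellation (S := MvPolynomial (Fin 1) A) (n := 6)
      (not_nonempty_iff.1 c1) ⟨(step 1).symm.trans c2.some⟩)
  by_cases c0 : Nonempty (MvPolynomial (Fin 0) A ≃ₐ[ℂ] MvPolynomial (Fin 5) ℂ)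
  swap
  · exact Or.inl (stableNotCoordinate_of_cancellation (S := MvPolynomial (Fin 0) A) (n := 5)
      (not_nonempty_iff.1 c0) ⟨(step 0).symm.trans c1.some⟩)
  exact Or.inr ⟨((isEmptyAlgEquiv A (Fin 0)).restrictScalars ℂ).symm.trans c0.some⟩

/-- The reduction. -/
theorem stableNotCoordinate (h1 : SlicesExist) (h2 : FibNontrivial) : StableNotCoordinate := by
  obtain ⟨s3, Q, hQ⟩ := h1
  let A := fibA s3
  let hsl := sliceEquiv (fibD s3) Q (fibD_isLND s3) (fibD_comm s3)
    (fun i => by rw [hQ, if_pos rfl]) (fun i j hij => by rw [hQ, if_neg hij])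
  let toOpt : Pe ≃ₐ[ℂ] MvPolynomial (Option (Fin 3 ⊕ Fin 4)) ℂ :=
    (optionEquivRight ℂ (Fin 3 ⊕ Fin 4)).symm
  have h3 : Nonempty (MvPolynomial (Fin 3) A ≃ₐ[ℂ] MvPolynomial (Fin 8) ℂ) :=
    ⟨((hsl.restrictScalars ℂ).trans toOpt).trans
      (renameEquiv ℂ (Fintype.equivFinOfCardEq (by simp)))⟩
  obtain h | ⟨⟨ψ⟩⟩ := tower_cases (A := ↥A) h3
  · exact h
  let e' : A := algebraMap Ce A Polynomial.X
  refine ⟨5, ψ e', ⟨3, by norm_num, ?_⟩, ?_⟩
  · let θ := ((((renameEquiv ℂ (Equiv.sumComm (Fin 5) (Fin 3))).trans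
      (sumAlgEquiv ℂ (Fin 3) (Fin 5))).trans (mapAlgEquiv (Fin 3) ψ.symm)).trans
      (hsl.restrictScalars ℂ)).trans toOpt
    let b : Option (Fin 3 ⊕ Fin 4) ≃ Fin 5 ⊕ Fin 3 := Fintype.equivOfCardEq (by simp)
    refine ⟨θ.trans (renameEquiv ℂ b), b none, ?_⟩
    have key : θ (rename Sum.inl (ψ e')) = X none := by
      have hs : sumAlgEquiv ℂ (Fin 3) (Fin 5) (rename Sum.inr (ψ e')) = C (ψ e') := by
        generalize ψ e' = p
        induction p using MvPolynomial.induction_on with
        | C c => simp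
        | add p q hp hq => simp [hp, hq]
        | mul_X p j hp => simp [hp]
      simp only [θ, AlgEquiv.trans_apply, renameEquiv_apply, rename_rename]
      rw [show (⇑(Equiv.sumComm (Fin 5) (Fin 3)) ∘ Sum.inl) = Sum.inr from rfl, hs]
      have hm : mapAlgEquiv (Fin 3) ψ.symm (C (ψ e')) = C e' := by simp
      rw [hm, AlgEquiv.restrictScalars_apply]
      simp only [hsl]
      rw [sliceEquiv_C]
      change (optionEquivRight ℂ (Fin 3 ⊕ Fin 4)).symm (C Polynomial.X) = X none
      rw [AlgEquiv.symm_apply_eq, optionEquivRight_X_none]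
    rw [AlgEquiv.trans_apply, key, renameEquiv_apply, rename_X]
  · rintro ⟨g, i, hg⟩
    let o : Fin 5 ≃ Option (Fin 4) := (Equiv.swap i 0).trans (finSuccEquiv 4)
    let τ : A ≃ₐ[ℂ] MvPolynomial (Fin 4) Ce :=
      ((ψ.trans g).trans (renameEquiv ℂ o)).trans (optionEquivRight ℂ (Fin 4))
    have ho : o i = none := by simp [o]
    have hτ : τ e' = C Polynomial.X := by
      simp [τ, hg, ho, optionEquivRight_X_none]
    have hC : (τ.toAlgHom.toRingHom).comp (algebraMap Ce A) =
        algebraMap Ce (MvPolynomial (Fin 4) Ce) :=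
      Polynomial.ringHom_ext (fun c => τ.commutes c) hτ
    exact (h2 s3).false
      (AlgEquiv.ofRingEquiv (f := τ.toRingEquiv) fun x => RingHom.congr_fun hC x)

end Vale.Agent.P295.Disproof
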