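import Vale.Agent.P295.Lnd
import Vale.Agent.P295.Defs

/-!
# Data for the counterexample to the stable coordinate conjecture

`phi` is an injective immersion of affine three-space into affine four-space; it comes from a
noninjective Keller map, and its image lies in the hypersurface `relH = 0`. The algebra `fibA s3`
is the common kernel of three commuting triangular derivations over `C[e]`.
-/

namespace Vale.Agent.P295.Disproof

open MvPolynomial

/-- Variables `x, y, w`. -/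
abbrev R3 := MvPolynomial (Fin 3) ℂ

/-- Variables `a, b, d, T`. -/
abbrev R4 := MvPolynomial (Fin 4) ℂ

/-- The discriminant of `d r^3 - 2 r^2 - b r - a`. -/
noncomputable def disc : R4 :=
  let a : R4 := X 0
  let b : R4 := X 1
  let d : R4 := X 2
  4 * b ^ 2 + 4 * b ^ 3 * d - 32 * a - 27 * a ^ 2 * d ^ 2 - 36 * a * b * d

/-- The equation of the image of `phi`. -/
noncomputable def relH : R4 :=
  X 2 * X 3 ^ 3 - 2 * disc * X 3 ^ 2 - X 1 * disc ^ 2 * X 3 - X 0 * disc ^ 3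

/-- The discriminant divided by `x`, along `phi`. -/
noncomputable def D1 : R3 :=
  let x : R3 := X 0
  let y : R3 := X 1
  let w : R3 := X 2
  C (-64 : ℂ) * w +
    C (621/2 : ℂ) * y ^ 3 +
    C (-24 : ℂ) * x * y * w +
    C (-16119/64 : ℂ) * x * y ^ 4 +
    C (9/2 : ℂ) * x ^ 2 * y ^ 2 * w +
    C (8505/32 : ℂ) * x ^ 2 * y ^ 5 +
    C (36 : ℂ) * x ^ 3 * w ^ 2 +
    C (-351 : ℂ) * x ^ 3 * y ^ 3 * w +
    C (35721/64 : ℂ) * x ^ 3 * y ^ 6 +
    C (72 : ℂ) * x ^ 4 * y * w ^ 2 +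
    C (-567/2 : ℂ) * x ^ 4 * y ^ 4 * w +
    C (36 : ℂ) * x ^ 5 * y ^ 2 * w ^ 2

/-- The correction `N3` of the normal vector. -/
noncomputable def N3 : R3 :=
  let x : R3 := X 0
  let y : R3 := X 1
  let w : R3 := X 2
  C (40 : ℂ) * y +
    C (-99/2 : ℂ) * x * y ^ 2 +
    C (-248 : ℂ) * x ^ 2 * w +
    C (5049/4 : ℂ) * x ^ 2 * y ^ 3 +
    C (-156 : ℂ) * x ^ 3 * y * w +
    C (-94581/128 : ℂ) * x ^ 3 * y ^ 4 +
    C (27/4 : ℂ) * x ^ 4 * y ^ 2 * w +
    C (25515/32 : ℂ) * x ^ 4 * y ^ 5 +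
    C (342 : ℂ) * x ^ 5 * w ^ 2 +
    C (-3321 : ℂ) * x ^ 5 * y ^ 3 * w +
    C (7351965/1024 : ℂ) * x ^ 5 * y ^ 6 +
    C (792 : ℂ) * x ^ 6 * y * w ^ 2 +
    C (-239841/64 : ℂ) * x ^ 6 * y ^ 4 * w +
    C (126117/256 : ℂ) * x ^ 6 * y ^ 7 +
    C (2151/4 : ℂ) * x ^ 7 * y ^ 2 * w ^ 2 +
    C (-10449/16 : ℂ) * x ^ 7 * y ^ 5 * w +
    C (413343/512 : ℂ) * x ^ 7 * y ^ 8 +
    C (-108 : ℂ) * x ^ 8 * w ^ 3 +
    C (1647 : ℂ) * x ^ 8 * y ^ 3 * w ^ 2 +
    C (-241299/32 : ℂ) * x ^ 8 * y ^ 6 * w +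
    C (2893401/256 : ℂ) * x ^ 8 * y ^ 9 +
    C (-432 : ℂ) * x ^ 9 * y * w ^ 3 +
    C (8829/2 : ℂ) * x ^ 9 * y ^ 4 * w ^ 2 +
    C (-199017/16 : ℂ) * x ^ 9 * y ^ 7 * w +
    C (6751269/1024 : ℂ) * x ^ 9 * y ^ 10 +
    C (-648 : ℂ) * x ^ 10 * y ^ 2 * w ^ 3 +
    C (4131 : ℂ) * x ^ 10 * y ^ 5 * w ^ 2 +
    C (-321489/64 : ℂ) * x ^ 10 * y ^ 8 * w +
    C (-432 : ℂ) * x ^ 11 * y ^ 3 * w ^ 3 +
    C (5103/4 : ℂ) * x ^ 11 * y ^ 6 * w ^ 2 +
    C (-108 : ℂ) * x ^ 12 * y ^ 4 * w ^ 3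

/-- `u = 1 + x y`. -/
noncomputable def uP : R3 := 1 + X 0 * X 1

/-- `z` in terms of `x, y, w`. -/
noncomputable def zP : R3 := C (-63 / 16 : ℂ) * X 1 ^ 2 + X 0 * X 2

/-- `d / x`. -/
noncomputable def dx : R3 := 2 - 3 * X 0 * X 1 - X 0 ^ 2 * zP

/-- The map from affine three-space to affine four-space. -/
noncomputable def phi : Fin 4 → R3 :=
  ![2 * (uP ^ 3 * zP + X 1 ^ 2 * uP * (4 + 3 * X 0 * X 1)),
    -(X 1 + 3 * X 0 * uP ^ 2 * zP + 3 * X 0 * X 1 ^ 2 * (4 + 3 * X 0 * X 1)),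
    X 0 * dx,
    uP * D1]

/-- The normal vector along `phi`. -/
noncomputable def normalN : Fin 4 → R3 := ![1, 0, 0, N3]

/-- `3 u d / x - 2`. -/
noncomputable def sigmaP : R3 := 3 * uP * dx - 2

/-- The first order displacement in the direction of `T`. -/
noncomputable def sP : R3 := C (1 / 8 : ℂ) * X 0 ^ 3 * sigmaP

/-- `d (4 + 3 b d)`. -/
noncomputable def coefM : R4 := X 2 * (4 + 3 * X 1 * X 2)

/-- `8 + 8 b d + 9 a d^2`. -/
noncomputable def coefR : R4 := 8 + 8 * X 1 * X 2 + 9 * X 0 * X 2 ^ 2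

/-- The linear form `M T - R disc`. -/
noncomputable def relG : R4 := coefM * X 3 - coefR * disc

/-- `3 d T - 2 disc`. -/
noncomputable def psi4 : R4 := 3 * X 2 * X 3 - 2 * disc

/-- The value on the special fibre of the second element of the tower. -/
noncomputable def fP : R3 := aeval phi psi4 * sP ^ 2 - aeval phi coefM * sP

/-- The base ring `C[e]`. -/
abbrev Ce := Polynomial ℂ

/-- `C[e][P, U]`, with three variables `P` and four variables `U`. -/
abbrev Pe := MvPolynomial (Fin 3 ⊕ Fin 4) Ce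

/-- The parameter `e`. -/
noncomputable def eps : Pe := C Polynomial.X

/-- A polynomial in `x, y, w` as a polynomial in the variables `P`. -/
noncomputable def lift3 : R3 →+* Pe :=
  eval₂Hom ((C : Ce →+* Pe).comp (Polynomial.C : ℂ →+* Ce)) fun j => X (Sum.inl j)

/-- The deformed map. -/
noncomputable def bigPhi (s3 : R3) (a : Fin 4) : Pe :=
  lift3 (phi a) + (if a = 3 then eps * lift3 sP else 0) + eps ^ 3 * lift3 (s3 * normalN a)

/-- The four coordinates `W = Phi + e^8 U`. -/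
noncomputable def bigW (s3 : R3) (a : Fin 4) : Pe := bigPhi s3 a + eps ^ 8 * X (Sum.inr a)

/-- The three derivations killing `e` and every `W`. -/
noncomputable def fibD (s3 : R3) (i : Fin 3) : Derivation Ce Pe Pe :=
  mkDerivation Ce <| Sum.elim (fun j => if j = i then eps ^ 8 else 0)
    fun a => -pderiv (Sum.inl i) (bigPhi s3 a)

/-- The fibration: the common kernel. -/
noncomputable abbrev fibA (s3 : R3) : Subalgebra Ce Pe := kerAll (fibD s3)

/-- Slices exist for a suitable `s3`. -/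
def SlicesExist : Prop :=
  ∃ (s3 : R3) (Q : Fin 3 → Pe), ∀ i j, fibD s3 i (Q j) = if i = j then 1 else 0

/-- No member of the family is a polynomial ring over `C[e]`. -/
def FibNontrivial : Prop :=
  ∀ s3 : R3, IsEmpty (fibA s3 ≃ₐ[Ce] MvPolynomial (Fin 4) Ce)

/-- No nonzero locally nilpotent derivation kills `relH`. -/
def RelHSemiRigid : Prop :=
  ∀ δ : Derivation ℂ R4 R4, IsLND δ → δ relH = 0 → δ = 0

/-- A polynomial vanishing along `phi` is a multiple of `relH`. -/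
def RelHGenerates : Prop := ∀ h : R4, aeval phi h = 0 → relH ∣ h

/-- Every polynomial is congruent to one in `phi` and `fP` modulo each power of `D1`. -/
def JetsGenerated : Prop :=
  ∀ (r : R3) (k : ℕ), ∃ G : MvPolynomial (Fin 5) ℂ, D1 ^ k ∣ r - aeval (Fin.snoc phi fP) G

/-- `phi` and `x` generate `C[x, y, w]`. -/
def PhiXGenerate : Prop :=
  ∀ r : R3, ∃ G : MvPolynomial (Fin 5) ℂ, aeval (Fin.snoc phi (X 0)) G = r

/-- The identities used in the tower of elements. -/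
def TowerIdentities : Prop :=
  aeval phi relH = 0 ∧ aeval phi (pderiv 3 relH) * sP = aeval phi relG ∧
    (∑ a, aeval phi (pderiv a relH) * normalN a) = 64 * D1 ^ 2 ∧
    ∃ ξ Φ0 : R4, aeval phi ξ = 64 * D1 ^ 6 ∧ aeval phi ξ * fP = aeval phi Φ0

/-- The conjecture fails. -/
def StableNotCoordinate : Prop :=
  ∃ (n : ℕ) (f : MvPolynomial (Fin n) ℂ), IsStableCoordinate f ∧ ¬IsCoordinate f

end Vale.Agent.P295.Disproof
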