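import Mathlib
import Vale.Agent.P295.Disproof.Defs
import Vale.Agent.P295.Disproof.SemiRigid

/-! `relH` is semirigid, and it generates the relations of `phi`. -/

namespace Vale.Agent.P295.Disproof

open MvPolynomial

theorem relH_semiRigid : RelHSemiRigid := by
  intro δ hn hH
  refine SemiRigid.no_lnd_kills_relH δ hn ?_
  have e : SemiRigid.relH = relH := by
    simp only [SemiRigid.relH, SemiRigid.disc, SemiRigid.va, SemiRigid.vb, SemiRigid.vd,
      SemiRigid.vT, relH, disc]
  rw [e]; exact hH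

lemma eval_aeval_phi (p : Fin 3 → ℂ) (f : R4) :
    eval p (aeval phi f) = eval (fun i => eval p (phi i)) f := by
  induction f using MvPolynomial.induction_on with
  | C c => simp
  | add a b ha hb => simp only [map_add, ha, hb]
  | mul_X a i ha => simp only [map_mul, aeval_X, eval_X, ha]

lemma disc_phi : aeval phi disc = X 0 * D1 := by
  refine MvPolynomial.funext fun p => ?_
  rw [eval_aeval_phi]
  simp [disc, phi, uP, zP, dx, D1, map_ofNat]
  ring

/-- Variables `b, d`. -/
abbrev S2 := MvPolynomial (Fin 2) ℂ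

/-- Variables `a, b, d`. -/
abbrev S3 := MvPolynomial (Fin 3) ℂ

noncomputable def inj3 : S3 →ₐ[ℂ] R4 := aeval fun i => X i.castSucc

noncomputable def dis3 : S3 :=
  4 * X 1 ^ 2 + 4 * X 1 ^ 3 * X 2 - 32 * X 0 - 27 * X 0 ^ 2 * X 2 ^ 2 - 36 * X 0 * X 1 * X 2

lemma inj3_dis : inj3 dis3 = disc := by
  simp [inj3, dis3, disc, map_ofNat]

lemma inj3_X0 : inj3 (X 0) = X 0 := by simp [inj3]
lemma inj3_X1 : inj3 (X 1) = X 1 := by simp [inj3]
lemma inj3_X2 : inj3 (X 2) = X 2 := by simp [inj3]

lemma pseudo_div (h : R4) : ∃ (k : ℕ) (q : R4) (c0 c1 c2 : S3),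
    X 2 ^ k * h = q * relH + inj3 c0 + inj3 c1 * X 3 + inj3 c2 * X 3 ^ 2 := by
  induction h using MvPolynomial.induction_on with
  | C c => exact ⟨0, 0, C c, 0, 0, by simp [inj3]⟩
  | add p p' hp hp' =>
    obtain ⟨k, q, c0, c1, c2, e⟩ := hp
    obtain ⟨k', q', c0', c1', c2', e'⟩ := hp'
    refine ⟨k + k', X 2 ^ k' * q + X 2 ^ k * q', X 2 ^ k' * c0 + X 2 ^ k * c0',
      X 2 ^ k' * c1 + X 2 ^ k * c1', X 2 ^ k' * c2 + X 2 ^ k * c2', ?_⟩
    simp only [map_add, map_mul, map_pow, inj3_X2]
    linear_combination (X 2 ^ k' : R4) * e + (X 2 ^ k : R4) * e'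
  | mul_X p i hp =>
    obtain ⟨k, q, c0, c1, c2, e⟩ := hp
    obtain rfl | rfl | rfl | rfl : i = 0 ∨ i = 1 ∨ i = 2 ∨ i = 3 := by omega
    · refine ⟨k, q * X 0, c0 * X 0, c1 * X 0, c2 * X 0, ?_⟩
      simp only [map_mul, inj3_X0]; linear_combination (X 0 : R4) * e
    · refine ⟨k, q * X 1, c0 * X 1, c1 * X 1, c2 * X 1, ?_⟩
      simp only [map_mul, inj3_X1]; linear_combination (X 1 : R4) * e
    · refine ⟨k, q * X 2, c0 * X 2, c1 * X 2, c2 * X 2, ?_⟩
      simp only [map_mul, inj3_X2]; linear_combination (X 2 : R4) * e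
    · refine ⟨k + 1, X 2 * q * X 3 + inj3 c2, c2 * X 0 * dis3 ^ 3,
        X 2 * c0 + c2 * X 1 * dis3 ^ 2, X 2 * c1 + 2 * c2 * dis3, ?_⟩
      simp only [map_add, map_mul, map_pow, map_ofNat, inj3_X0, inj3_X1, inj3_X2, inj3_dis]
      rw [relH]
      rw [relH] at e
      linear_combination (X 2 * X 3 : R4) * e

open Polynomial in
/-- `a` in terms of the root: `d r³ - 2 r² - b r`. -/
noncomputable def chartA : Polynomial S2 :=
  Polynomial.C (MvPolynomial.X 1) * Polynomial.X ^ 3 + Polynomial.C (-2) * Polynomial.X ^ 2 +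
    Polynomial.C (-MvPolynomial.X 0) * Polynomial.X + Polynomial.C 0

/-- A polynomial in `a, b, d` as a polynomial in `a`. -/
noncomputable def theta : S3 →ₐ[ℂ] Polynomial S2 :=
  aeval ![Polynomial.X, Polynomial.C (X 0), Polynomial.C (X 1)]

noncomputable def thetaInv : Polynomial S2 →+* S3 :=
  Polynomial.eval₂RingHom (aeval (R := ℂ) ![(X 1 : S3), X 2]).toRingHom (X 0)

lemma theta_inj : Function.Injective theta := by
  have h : ∀ c, thetaInv (theta c) = c := by
    intro c
    induction c using MvPolynomial.induction_on with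
    | C c => simp [theta, thetaInv, IsScalarTower.algebraMap_apply ℂ S2 (Polynomial S2)]
    | add p q hp hq => simp [hp, hq]
    | mul_X p i hp =>
      rw [map_mul, map_mul, hp]
      congr 1
      fin_cases i <;> simp [theta, thetaInv]
  exact Function.LeftInverse.injective h

lemma chartA_degree : chartA.natDegree = 3 :=
  Polynomial.natDegree_cubic (X_ne_zero _)

lemma deg_dis : (theta dis3).natDegree = 2 := by
  have : theta dis3 = Polynomial.C (-27 * X 1 ^ 2) * Polynomial.X ^ 2 +
      Polynomial.C (-32 - 36 * X 0 * X 1) * Polynomial.X +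
      Polynomial.C (4 * X 0 ^ 2 + 4 * X 0 ^ 3 * X 1) := by
    simp [theta, dis3, map_ofNat]; ring
  rw [this]
  exact Polynomial.natDegree_quadratic (mul_ne_zero (by norm_num) (pow_ne_zero _ (X_ne_zero _)))

lemma chart_indep (c0 c1 c2 : Polynomial S2)
    (h : c0.comp chartA + c1.comp chartA * (Polynomial.X * (theta dis3).comp chartA) +
      c2.comp chartA * (Polynomial.X * (theta dis3).comp chartA) ^ 2 = 0) :
    c0 = 0 ∧ c1 = 0 ∧ c2 = 0 := by
  have hA := chartA_degree
  have hz : ∀ c : Polynomial S2, c.comp chartA = 0 ↔ c = 0 := fun c =>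
    ⟨fun hc => by
      rcases Polynomial.comp_eq_zero_iff.mp hc with h | ⟨-, h⟩
      · exact h
      · exact absurd (congrArg Polynomial.natDegree h) (by simp [hA]),
      fun hc => by simp [hc]⟩
  have hδ0 : (theta dis3).comp chartA ≠ 0 := by
    rw [Ne, hz]; intro h0; simpa [h0] using deg_dis
  set M := Polynomial.X * (theta dis3).comp chartA with hMdef
  have hM0 : M ≠ 0 := mul_ne_zero Polynomial.X_ne_zero hδ0
  have hM : M.natDegree = 7 := by
    rw [hMdef, Polynomial.natDegree_mul Polynomial.X_ne_zero hδ0, Polynomial.natDegree_comp,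
      deg_dis, hA, Polynomial.natDegree_X]
  have e0 : (c0.comp chartA).natDegree = 3 * c0.natDegree := by
    rw [Polynomial.natDegree_comp, hA, mul_comm]
  have e1 : c1 ≠ 0 → (c1.comp chartA * M).natDegree = 3 * c1.natDegree + 7 := fun hc => by
    rw [Polynomial.natDegree_mul (mt (hz c1).mp hc) hM0, Polynomial.natDegree_comp, hA, hM,
      mul_comm]
  have e2 : c2 ≠ 0 → (c2.comp chartA * M ^ 2).natDegree = 3 * c2.natDegree + 14 := fun hc => by
    rw [Polynomial.natDegree_mul (mt (hz c2).mp hc) (pow_ne_zero _ hM0),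
      Polynomial.natDegree_comp, hA, Polynomial.natDegree_pow, hM, mul_comm]
  have hc2 : c2 = 0 := by
    by_contra hc
    have e := e2 hc
    have : (c2.comp chartA * M ^ 2) = -(c0.comp chartA + c1.comp chartA * M) := by
      linear_combination h
    rw [this, Polynomial.natDegree_neg] at e
    by_cases hc1 : c1 = 0
    · simp [hc1] at e; omega
    · have e' := e1 hc1
      have hle := Polynomial.natDegree_add_le (c0.comp chartA) (c1.comp chartA * M)
      rcases lt_trichotomy (c0.comp chartA).natDegree (c1.comp chartA * M).natDegree with g | g | g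
      · rw [Polynomial.natDegree_add_eq_right_of_natDegree_lt g] at e; omega
      · omega
      · rw [Polynomial.natDegree_add_eq_left_of_natDegree_lt g] at e; omega
  subst hc2
  have hc1 : c1 = 0 := by
    by_contra hc
    have e := e1 hc
    have : c1.comp chartA * M = -(c0.comp chartA) := by
      simp only [Polynomial.zero_comp, zero_mul, add_zero] at h
      linear_combination h
    rw [this, Polynomial.natDegree_neg] at e; omega
  subst hc1
  exact ⟨(hz c0).mp (by simpa using h), rfl, rfl⟩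

/-- Evaluation of a chart polynomial at `(b, d, r)`. -/
noncomputable def chartEval (v : Fin 2 → ℂ) (r : ℂ) : Polynomial S2 →+* ℂ :=
  Polynomial.eval₂RingHom (eval v) r

lemma eq_zero_of_chartEval {F : Polynomial S2} (h : ∀ v r, chartEval v r F = 0) : F = 0 := by
  ext1 n
  rw [Polynomial.coeff_zero]
  refine MvPolynomial.funext fun v => ?_
  have : F.map (eval v) = 0 := Polynomial.funext fun r => by
    simpa [chartEval, Polynomial.eval_map] using h v r
  simpa [Polynomial.coeff_map] using congrArg (fun p => Polynomial.coeff p n) this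

lemma chartEval_theta (v : Fin 2 → ℂ) (r : ℂ) (c : S3) :
    chartEval v r ((theta c).comp chartA) =
      eval ![v 1 * r ^ 3 - 2 * r ^ 2 - v 0 * r, v 0, v 1] c := by
  induction c using MvPolynomial.induction_on with
  | C c => simp [theta, chartEval, IsScalarTower.algebraMap_apply ℂ S2 (Polynomial S2)]
  | add p q hp hq => simp only [map_add, Polynomial.add_comp, hp, hq]
  | mul_X p i hp =>
    simp only [map_mul, Polynomial.mul_comp, hp, eval_X]
    congr 1
    fin_cases i <;> simp [theta, chartEval, chartA, map_ofNat]; ring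

lemma chart_point (v : Fin 2 → ℂ) (r : ℂ) (h : 3 * v 1 * r ^ 2 - 4 * r - v 0 ≠ 0) :
    ∃ p : Fin 3 → ℂ,
      eval p (phi 0) = v 1 * r ^ 3 - 2 * r ^ 2 - v 0 * r ∧ eval p (phi 1) = v 0 ∧
        eval p (phi 2) = v 1 ∧ eval p (phi 3) = r * eval p (X 0 * D1) := by
  obtain ⟨G, hG, hGd⟩ : ∃ G : ℂ, G ≠ 0 ∧ v 0 = 3 * v 1 * r ^ 2 - 4 * r - G :=
    ⟨3 * v 1 * r ^ 2 - 4 * r - v 0, h, by ring⟩
  set x : ℂ := 2 / G with hx
  set y : ℂ := r - 1 / x with hy
  set z : ℂ := (2 * x - 3 * x ^ 2 * y - v 1) / x ^ 3 with hz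
  have hx0 : x ≠ 0 := div_ne_zero two_ne_zero hG
  refine ⟨![x, y, (z + 63 / 16 * y ^ 2) / x], ?_, ?_, ?_, ?_⟩
  · simp [phi, uP, zP, map_ofNat]
    rw [hz, hy, hx, hGd]; field_simp; ring
  · simp [phi, uP, zP, map_ofNat]
    rw [hz, hy, hx, hGd]; field_simp; ring
  · simp [phi, uP, zP, dx, map_ofNat]
    rw [hz, hy, hx]; field_simp; ring
  · have e : r * x = 1 + x * y := by rw [hy]; field_simp; ring
    simp [phi, uP]
    rw [← mul_assoc, e]

theorem indep_phi (c0 c1 c2 : S3)
    (h : aeval phi (inj3 c0 + inj3 c1 * X 3 + inj3 c2 * X 3 ^ 2) = 0) :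
    c0 = 0 ∧ c1 = 0 ∧ c2 = 0 := by
  set M := Polynomial.X * (theta dis3).comp chartA with hM
  set F := (theta c0).comp chartA + (theta c1).comp chartA * M + (theta c2).comp chartA * M ^ 2
    with hF
  let G' : Polynomial S2 := Polynomial.C (3 * X 1) * Polynomial.X ^ 2 +
    Polynomial.C (-4) * Polynomial.X + Polynomial.C (-X 0)
  have hG' : G' ≠ 0 := by
    intro h0
    have := Polynomial.natDegree_quadratic (b := (-4 : S2)) (c := -X 0)
      (mul_ne_zero (by norm_num : (3 : S2) ≠ 0) (X_ne_zero (1 : Fin 2)))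
    simp only [G'] at h0
    rw [h0] at this
    simp at this
  have hFG : F * G' = 0 := eq_zero_of_chartEval fun v r => by
    by_cases hne : 3 * v 1 * r ^ 2 - 4 * r - v 0 = 0
    · rw [map_mul]
      refine mul_eq_zero_of_right _ ?_
      simp [G', chartEval, map_ofNat]
      linear_combination hne
    · obtain ⟨p, p0, p1, p2, p3⟩ := chart_point v r hne
      rw [map_mul]
      refine mul_eq_zero_of_left ?_ _
      have hd : eval p (X 0 * D1) =
          eval ![v 1 * r ^ 3 - 2 * r ^ 2 - v 0 * r, v 0, v 1] dis3 := by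
        rw [← disc_phi, ← inj3_dis, eval_aeval_phi]
        simp [inj3, dis3, map_ofNat, p0, p1, p2]
      have key : ∀ c : S3, eval (fun i => eval p (phi i)) (inj3 c) =
          eval ![v 1 * r ^ 3 - 2 * r ^ 2 - v 0 * r, v 0, v 1] c := by
        intro c
        induction c using MvPolynomial.induction_on with
        | C c => simp [inj3]
        | add a b ha hb => simp [ha, hb]
        | mul_X a i ha =>
          rw [map_mul, map_mul, map_mul, ha]
          congr 1
          fin_cases i <;> simp [inj3, p0, p1, p2]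
      have h' := congrArg (eval p) h
      rw [eval_aeval_phi, map_zero] at h'
      simp only [map_add, map_mul, map_pow, eval_X, key, p3, hd] at h'
      have hX : chartEval v r Polynomial.X = r := by simp [chartEval]
      simpa only [hF, hM, map_add, map_mul, map_pow, chartEval_theta, hX] using h'
  have hF0 : F = 0 := (mul_eq_zero.mp hFG).resolve_right hG'
  obtain ⟨e0, e1, e2⟩ := chart_indep _ _ _ hF0
  exact ⟨theta_inj (e0.trans (map_zero _).symm), theta_inj (e1.trans (map_zero _).symm),
    theta_inj (e2.trans (map_zero _).symm)⟩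

theorem relH_generates' (hphi : aeval phi relH = 0) : RelHGenerates := by
  intro h hh
  obtain ⟨k, q, c0, c1, c2, e⟩ := pseudo_div h
  have he : aeval phi (inj3 c0 + inj3 c1 * X 3 + inj3 c2 * X 3 ^ 2) = 0 := by
    have := congrArg (aeval phi) e
    simp only [map_mul, map_add, map_pow, hphi, hh, mul_zero, zero_add] at this
    simp only [map_mul, map_add, map_pow]
    exact this.symm
  obtain ⟨r0, r1, r2⟩ := indep_phi c0 c1 c2 he
  subst r0 r1 r2
  simp only [map_zero, zero_mul, add_zero] at e
  have hp : Prime (X 2 : R4) := X_prime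
  have hn : ¬ (X 2 : R4) ∣ relH := by
    rintro ⟨g, hg⟩
    have := congrArg (eval (![1, 0, 0, 0] : Fin 4 → ℂ)) hg
    simp [relH, disc, map_ofNat] at this
  have hdiv : relH ∣ X 2 ^ k * h := ⟨q, by rw [e, mul_comm]⟩
  clear e he hh
  induction k with
  | zero => simpa using hdiv
  | succ k ih =>
    apply ih
    obtain ⟨g, hg⟩ := hdiv
    rcases hp.dvd_or_dvd (⟨X 2 ^ k * h, by rw [← hg]; ring⟩ : (X 2 : R4) ∣ relH * g) with
      hh | ⟨g', rfl⟩
    · exact absurd hh hn
    · exact ⟨g', mul_left_cancel₀ hp.ne_zero (by linear_combination hg)⟩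

lemma relH_phi : aeval phi relH = 0 := by
  simp only [relH, map_sub, map_mul, map_pow, map_ofNat, aeval_X, disc_phi]
  simp [phi, uP, zP, dx]
  ring

theorem relH_generates : RelHGenerates := relH_generates' relH_phi

end Vale.Agent.P295.Disproof
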