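import Vale.Agent.P295.Disproof.Embed

/-!
# The fibration is not trivial

Were the common kernel a polynomial ring over `C[e]`, one of its coordinate derivations would
reduce modulo `e` to a locally nilpotent derivation of `C[a, b, d, T]` killing `relH`.
-/

namespace Vale.Agent.P295.Disproof

open MvPolynomial

theorem iterate_mul_top {R B : Type*} [CommRing R] [CommRing B] [Algebra R B]
    (D : Derivation R B B) : ∀ (N n m : ℕ) (a b : B), n + m = N → D^[n + 1] a = 0 →
      D^[m + 1] b = 0 → D^[N] (a * b) = (N.choose n : B) * (D^[n] a * D^[m] b) := by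
  intro N
  induction N with
  | zero =>
    intro n m a b h _ _
    obtain ⟨rfl, rfl⟩ : n = 0 ∧ m = 0 := ⟨by omega, by omega⟩
    simp
  | succ N ih =>
    intro n m a b h ha hb
    rw [Function.iterate_succ_apply, D.leibniz, iterate_map_add, smul_eq_mul, smul_eq_mul]
    rcases Nat.eq_zero_or_pos n with rfl | hn
    · obtain rfl : m = N + 1 := by omega
      simp only [Nat.zero_add, Function.iterate_one] at ha
      rw [ha, mul_zero, iterate_map_zero, add_zero,
        ih 0 N a (D b) (by omega) (by simpa using ha) (by rw [← Function.iterate_succ_apply]; exact hb)]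
      simp [Function.iterate_succ_apply]
    rcases Nat.eq_zero_or_pos m with rfl | hm
    · obtain rfl : n = N + 1 := by omega
      simp only [Nat.zero_add, Function.iterate_one] at hb
      rw [hb, mul_zero, iterate_map_zero, zero_add, mul_comm b (D a),
        ih N 0 (D a) b (by omega) (by rw [← Function.iterate_succ_apply]; exact ha) (by simpa using hb)]
      simp [Function.iterate_succ_apply]
    obtain ⟨n, rfl⟩ : ∃ k, n = k + 1 := ⟨n - 1, by omega⟩
    obtain ⟨m, rfl⟩ : ∃ k, m = k + 1 := ⟨m - 1, by omega⟩
    rw [ih (n + 1) m a (D b) (by omega) ha (by rw [← Function.iterate_succ_apply]; exact hb),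
      mul_comm b (D a),
      ih n (m + 1) (D a) b (by omega) (by rw [← Function.iterate_succ_apply]; exact ha) hb,
      ← Function.iterate_succ_apply, ← Function.iterate_succ_apply, Nat.choose_succ_succ]
    push_cast
    ring

/-- The kernel of a locally nilpotent derivation of a domain of characteristic zero is closed
under factors. -/
theorem lnd_factor {R B : Type*} [CommRing R] [CommRing B] [IsDomain B] [CharZero B] [Algebra R B]
    (D : Derivation R B B) (hD : IsLND D) {a b : B} (h : D (a * b) = 0) (hab : a * b ≠ 0) :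
    D a = 0 := by
  classical
  have top : ∀ c : B, c ≠ 0 → ∃ n, D^[n] c ≠ 0 ∧ D^[n + 1] c = 0 := fun c hc => by
    have hex := hD c
    rcases hk : Nat.find hex with _ | n
    · have := Nat.find_spec hex
      rw [hk] at this
      exact absurd this hc
    · exact ⟨n, Nat.find_min hex (by omega), hk ▸ Nat.find_spec hex⟩
  obtain ⟨n, hn, hn'⟩ := top a (left_ne_zero_of_mul hab)
  obtain ⟨m, hm, hm'⟩ := top b (right_ne_zero_of_mul hab)
  rcases Nat.eq_zero_or_pos n with rfl | hn0
  · simpa using hn'
  exfalso
  have h1 := iterate_mul_top D (n + m) n m a b rfl hn' hm'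
  have h2 : D^[n + m] (a * b) = 0 := iterate_zero_of_le D (n := 1) (by simpa using h) (by omega)
  rw [h2] at h1
  exact mul_ne_zero (Nat.cast_ne_zero.2 (Nat.choose_pos (Nat.le_add_right n m)).ne')
    (mul_ne_zero hn hm) h1.symm

/-- Reduction modulo `e`. -/
noncomputable def red : MvPolynomial (Fin 4) Ce →+* R4 :=
  MvPolynomial.map (Polynomial.evalRingHom 0)

theorem eq_smul_of_red_eq_zero {G : MvPolynomial (Fin 4) Ce} (h : red G = 0) :
    ∃ G', G = (Polynomial.X : Ce) • G' := by
  have : C Polynomial.X ∣ G := (C_dvd_iff_dvd_coeff _ _).2 fun m => by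
    have h1 := congrArg (coeff m) h
    rw [red, coeff_map, coeff_zero] at h1
    exact Polynomial.X_dvd_iff.2 (by rw [Polynomial.coeff_zero_eq_eval_zero]; exact h1)
  obtain ⟨G', rfl⟩ := this
  exact ⟨G', C_mul'⟩

theorem red_X_smul (G : MvPolynomial (Fin 4) Ce) : red ((Polynomial.X : Ce) • G) = 0 := by
  rw [← C_mul', map_mul]
  simp [red]

theorem red_surjective : Function.Surjective red :=
  MvPolynomial.map_surjective _ fun c => ⟨Polynomial.C c, by simp⟩

theorem exists_scale {v : Fin 4 → MvPolynomial (Fin 4) Ce} (hv : ∃ a, v a ≠ 0) :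
    ∃ (j : ℕ) (v' : Fin 4 → MvPolynomial (Fin 4) Ce),
      (∀ a, v a = (Polynomial.X ^ j : Ce) • v' a) ∧ ∃ a, red (v' a) ≠ 0 := by
  obtain ⟨a₀, ha₀⟩ := hv
  obtain ⟨m, hm⟩ : ∃ m, coeff m (v a₀) ≠ 0 := by
    by_contra hc
    push Not at hc
    exact ha₀ (MvPolynomial.ext _ _ (by simpa using hc))
  suffices h : ∀ (d : ℕ) (v : Fin 4 → MvPolynomial (Fin 4) Ce), coeff m (v a₀) ≠ 0 →
      (coeff m (v a₀)).natDegree ≤ d → ∃ (j : ℕ) (v' : Fin 4 → MvPolynomial (Fin 4) Ce),
        (∀ a, v a = (Polynomial.X ^ j : Ce) • v' a) ∧ ∃ a, red (v' a) ≠ 0 from h _ v hm le_rfl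
  intro d
  induction d with
  | zero =>
    intro v hne hdeg
    refine ⟨0, v, by simp, a₀, fun h0 => ?_⟩
    obtain ⟨G', hG'⟩ := eq_smul_of_red_eq_zero h0
    rw [hG', coeff_smul, smul_eq_mul] at hne hdeg
    rw [Polynomial.natDegree_X_mul (right_ne_zero_of_mul hne)] at hdeg
    omega
  | succ d ih =>
    intro v hne hdeg
    by_cases hall : ∀ a, red (v a) = 0
    · choose v' hv' using fun a => eq_smul_of_red_eq_zero (hall a)
      rw [hv' a₀, coeff_smul, smul_eq_mul] at hne hdeg
      rw [Polynomial.natDegree_X_mul (right_ne_zero_of_mul hne)] at hdeg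
      obtain ⟨j, w, hw, hw'⟩ := ih v' (right_ne_zero_of_mul hne) (by omega)
      exact ⟨j + 1, w, fun a => by rw [hv' a, hw a, smul_smul, pow_succ'], hw'⟩
    · push Not at hall
      exact ⟨0, v, by simp, hall⟩

variable (s3 : R3)

/-- The special fibre of the ambient ring. -/
noncomputable def redP : Pe →+* MvPolynomial (Fin 3 ⊕ Fin 4) ℂ :=
  MvPolynomial.map (Polynomial.evalRingHom 0)

theorem redP_atW (G : MvPolynomial (Fin 4) Ce) :
    redP (atW s3 G : Pe) = rename Sum.inl (aeval phi (red G)) := by
  have hl : ∀ r : R3, redP (lift3 r) = rename Sum.inl r := fun r => by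
    induction r using MvPolynomial.induction_on with
    | C c => simp [lift3, redP]
    | add p q hp hq => simp [hp, hq]
    | mul_X p j hp =>
      rw [map_mul, map_mul, map_mul, hp]
      simp [lift3, redP]
  have he : redP eps = 0 := by simp [redP, eps]
  induction G using MvPolynomial.induction_on with
  | C c => simp [atW, red, redP]
  | add p q hp hq => simp [hp, hq]
  | mul_X p a hp =>
    rw [map_mul, Subalgebra.coe_mul, map_mul, map_mul, map_mul, map_mul, hp]
    congr 1
    simp only [atW, aeval_X, kerW, bigW, bigPhi, red, map_X]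
    split_ifs <;> simp [hl, he]

theorem relH_ne_zero : relH ≠ 0 := fun h => by
  have h1 := congrArg (MvPolynomial.eval ![(0 : ℂ), 0, 1, 1]) h
  simp [relH, disc] at h1

/-- The fibration is not a polynomial ring over `C[e]`. -/
theorem fib_nontrivial (h1 : RelHSemiRigid) (h2 : RelHGenerates) (h3 : aeval phi relH = 0) :
    FibNontrivial := by
  intro s3
  refine ⟨fun φ => ?_⟩
  obtain ⟨E, hlnd, -, hself, hother⟩ := exists_lnd_of_coordinates (R := Ce) (B := fibA s3) (σ := Fin 4) φ.symm
  set f : Fin 4 → fibA s3 := fun k => φ.symm (X k) with hf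
  have hXne : (Polynomial.X : Ce) ≠ 0 := Polynomial.X_ne_zero
  have hcancel : ∀ (j : ℕ) {u v : fibA s3},
      (Polynomial.X ^ j : Ce) • u = (Polynomial.X ^ j : Ce) • v → u = v := fun j {u v} h => by
    have h' := congrArg Subtype.val h
    simp only [SetLike.val_smul, Algebra.smul_def] at h'
    exact Subtype.ext (mul_left_cancel₀ (by simp [eps, hXne]) h')
  obtain ⟨k, hk⟩ : ∃ k, f k ∉ (atW s3).range := by
    by_contra hall
    push Not at hall
    let Hl : MvPolynomial (Fin 4) Ce := MvPolynomial.map Polynomial.C relH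
    have hredH : red Hl = relH := by
      rw [red, MvPolynomial.map_map]
      have : (Polynomial.evalRingHom 0).comp Polynomial.C = RingHom.id ℂ := by ext; simp
      rw [this, MvPolynomial.map_id]
    obtain ⟨y, hy⟩ : ∃ y : Pe, (atW s3 Hl : Pe) = eps * y := by
      have h0 : redP (atW s3 Hl : Pe) = 0 := by rw [redP_atW, hredH, h3, map_zero]
      obtain ⟨y, hy⟩ : C Polynomial.X ∣ (atW s3 Hl : Pe) := (C_dvd_iff_dvd_coeff _ _).2 fun m => by
        have h1 := congrArg (coeff m) h0
        rw [redP, coeff_map, coeff_zero] at h1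
        exact Polynomial.X_dvd_iff.2 (by rw [Polynomial.coeff_zero_eq_eval_zero]; exact h1)
      exact ⟨y, hy⟩
    have hyA : y ∈ fibA s3 := fun i => by
      have h0 := (atW s3 Hl).2 i
      rw [hy, Derivation.leibniz, fibD_eps, smul_zero, add_zero] at h0
      exact (mul_eq_zero.1 h0).resolve_left (by simp [eps, hXne])
    have hrange : ∀ p : MvPolynomial (Fin 4) Ce, φ.symm p ∈ (atW s3).range := fun p => by
      induction p using MvPolynomial.induction_on with
      | C c =>
        rw [← MvPolynomial.algebraMap_eq, AlgEquiv.commutes]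
        exact Subalgebra.algebraMap_mem _ c
      | add p q hp hq => rw [map_add]; exact add_mem hp hq
      | mul_X p a hp => rw [map_mul]; exact mul_mem hp (hall a)
    obtain ⟨G, hG⟩ : (⟨y, hyA⟩ : fibA s3) ∈ (atW s3).range := by
      simpa using hrange (φ ⟨y, hyA⟩)
    have : Hl = (Polynomial.X : Ce) • G := atW_injective s3 <| by
      rw [map_smul]
      refine Subtype.ext ?_
      rw [SetLike.val_smul, show (atW s3 G : Pe) = y from congrArg Subtype.val hG, hy,
        Algebra.smul_def]
      rfl
    refine relH_ne_zero ?_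
    rw [← hredH, this, red_X_smul]
  classical
  have hex : ∃ (N : ℕ) (G : MvPolynomial (Fin 4) Ce),
      (Polynomial.X ^ N : Ce) • f k = atW s3 G := exists_atW_eq s3 (f k)
  obtain ⟨G, hG⟩ := Nat.find_spec hex
  set N := Nat.find hex
  obtain ⟨N', hN⟩ : ∃ N', N = N' + 1 := by
    rcases Nat.eq_zero_or_pos N with h0 | h0
    · refine absurd ⟨G, ?_⟩ hk
      rw [h0, pow_zero, one_smul] at hG
      exact hG.symm
    · exact ⟨N - 1, by omega⟩
  set h := red G with hh
  have hne : h ≠ 0 := fun h0 => by
    obtain ⟨G', rfl⟩ := eq_smul_of_red_eq_zero h0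
    refine Nat.find_min hex (show N' < N by omega) ⟨G', ?_⟩
    rw [hN, pow_succ, mul_smul, map_smul] at hG
    refine hcancel 1 ?_
    simp only [pow_one]
    rw [← hG, smul_smul, smul_smul, mul_comm]
  have hphi : aeval phi h = 0 := by
    apply rename_injective (Sum.inl : Fin 3 → Fin 3 ⊕ Fin 4) Sum.inl_injective
    rw [hh, ← redP_atW s3, ← hG, SetLike.val_smul, Algebra.smul_def, map_mul, map_zero, hN]
    simp [redP]
  obtain ⟨l, hl⟩ : ∃ l : Fin 4, l ≠ k := exists_ne k
  choose NW GW hGW using fun a => exists_atW_eq s3 (E l (kerW s3 a))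
  set M := ∑ a, NW a
  set v : Fin 4 → MvPolynomial (Fin 4) Ce :=
    fun a => (Polynomial.X ^ (M - NW a) : Ce) • GW a with hv
  have hvW : ∀ a, atW s3 (v a) = (Polynomial.X ^ M : Ce) • E l (kerW s3 a) := fun a => by
    rw [hv, map_smul, ← hGW, smul_smul, ← pow_add,
      Nat.sub_add_cancel (Finset.single_le_sum (fun b _ => Nat.zero_le (NW b)) (Finset.mem_univ a))]
  set E' := mkDerivation Ce v with hE'
  have hcomm : ∀ p, atW s3 (E' p) = (Polynomial.X ^ M : Ce) • E l (atW s3 p) := fun p => by
    induction p using MvPolynomial.induction_on with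
    | C c =>
      rw [← MvPolynomial.algebraMap_eq, Derivation.map_algebraMap, map_zero, AlgHom.commutes,
        Derivation.map_algebraMap, smul_zero]
    | add p q hp hq => simp [hp, hq, smul_add]
    | mul_X p a hp =>
      rw [Derivation.leibniz, map_add, smul_eq_mul, smul_eq_mul, map_mul, map_mul, hp,
        hE', mkDerivation_X, hvW, map_mul, Derivation.leibniz, smul_eq_mul, smul_eq_mul]
      simp only [atW, aeval_X, Algebra.smul_def]
      ring
  have hvne : ∃ a, v a ≠ 0 := by
    by_contra hz
    push Not at hz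
    obtain ⟨Nl, Gl, hGl⟩ := exists_atW_eq s3 (f l)
    have h0 : E' Gl = 0 := by
      rw [hE', show v = 0 from funext hz]
      have : mkDerivation Ce (0 : Fin 4 → MvPolynomial (Fin 4) Ce) = 0 :=
        derivation_ext fun i => by simp
      rw [this]
      rfl
    have := hcomm Gl
    rw [h0, map_zero, ← hGl, Derivation.map_smul, smul_smul, ← pow_add,
      show E l (f l) = 1 from hself l] at this
    exact one_ne_zero (hcancel _ (this.symm.trans (smul_zero _).symm))
  obtain ⟨j, v', hvv', a₁, ha₁⟩ := exists_scale hvne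
  set E'' := mkDerivation Ce v' with hE''
  have hsc : ∀ p, E' p = (Polynomial.X ^ j : Ce) • E'' p := fun p => by
    have : E' = (Polynomial.X ^ j : Ce) • E'' :=
      derivation_ext fun a => by simp [hE', hE'', mkDerivation_X, hvv']
    rw [this]
    rfl
  have hlnd'' : IsLND E'' := fun p => by
    obtain ⟨n, hn⟩ := hlnd l (atW s3 p)
    refine ⟨n, ?_⟩
    have hiter : ∀ i, (Polynomial.X ^ (j * i) : Ce) • atW s3 (E''^[i] p) =
        (Polynomial.X ^ (M * i) : Ce) • (E l)^[i] (atW s3 p) := fun i => by
      induction i with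
      | zero => simp
      | succ i ih =>
        rw [Function.iterate_succ_apply' E'' i, Function.iterate_succ_apply' (E l) i]
        calc (Polynomial.X ^ (j * (i + 1)) : Ce) • atW s3 (E'' (E''^[i] p))
            = (Polynomial.X ^ (j * i) : Ce) • atW s3 (E' (E''^[i] p)) := by
              rw [hsc, map_smul, smul_smul, ← pow_add, Nat.mul_succ]
          _ = (Polynomial.X ^ M : Ce) •
                E l ((Polynomial.X ^ (j * i) : Ce) • atW s3 (E''^[i] p)) := by
              rw [hcomm, Derivation.map_smul, smul_comm]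
          _ = _ := by
              rw [ih, Derivation.map_smul, smul_smul, ← pow_add, Nat.mul_succ, Nat.add_comm]
    have := hiter n
    rw [hn, smul_zero] at this
    refine atW_injective s3 ?_
    rw [map_zero]
    exact hcancel (j * n) (this.trans (smul_zero _).symm)
  set δ := mkDerivation ℂ (fun a => red (v' a)) with hδ
  have hred : ∀ p, δ (red p) = red (E'' p) := fun p => by
    induction p using MvPolynomial.induction_on with
    | C c => simp [red]
    | add p q hp hq => simp [hp, hq]
    | mul_X p a hp =>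
      rw [map_mul, Derivation.leibniz, Derivation.leibniz, map_add, smul_eq_mul, smul_eq_mul,
        smul_eq_mul, smul_eq_mul, map_mul, map_mul, hp]
      simp [hδ, hE'', red, mkDerivation_X]
  have hδlnd : IsLND δ := fun q => by
    obtain ⟨p, rfl⟩ := red_surjective q
    obtain ⟨n, hn⟩ := hlnd'' p
    refine ⟨n, ?_⟩
    have : ∀ i, δ^[i] (red p) = red (E''^[i] p) := fun i => by
      induction i with
      | zero => rfl
      | succ i ih => rw [Function.iterate_succ_apply', ih, hred, Function.iterate_succ_apply']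
    rw [this, hn, map_zero]
  have hkill : E'' G = 0 := by
    have h0 := hcomm G
    rw [← hG, Derivation.map_smul, show E l (f k) = 0 from hother l k hl, smul_zero, smul_zero,
      hsc, map_smul] at h0
    refine atW_injective s3 ?_
    rw [map_zero]
    exact hcancel j (h0.trans (smul_zero _).symm)
  have hδh : δ h = 0 := by rw [hh, hred, hkill, map_zero]
  obtain ⟨c, hc⟩ := h2 h hphi
  have hδH : δ relH = 0 := lnd_factor δ hδlnd (b := c) (by rw [← hc]; exact hδh) (hc ▸ hne)
  have := h1 δ hδlnd hδH
  exact ha₁ (by simpa [hδ] using congrArg (fun D : Derivation ℂ R4 R4 => D (X a₁)) this)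

end Vale.Agent.P295.Disproof
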