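import Vale.Agent.P295.Disproof.Cross

/-!
# Slices for the fibration
-/

namespace Vale.Agent.P295.Disproof

open MvPolynomial

/-- The special fibre `C[P, U]`. -/
abbrev R7 := MvPolynomial (Fin 3 ⊕ Fin 4) ℂ

/-- Setting the parameter to zero. -/
noncomputable def bar : Pe →+* R7 := MvPolynomial.map Polynomial.constantCoeff

@[simp] theorem bar_X (j : Fin 3 ⊕ Fin 4) : bar (X j) = X j := by simp [bar]

@[simp] theorem bar_eps : bar eps = 0 := by simp [bar, eps]

theorem bar_lift3 (r : R3) : bar (lift3 r) = rename Sum.inl r := by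
  induction r using MvPolynomial.induction_on with
  | C a => simp [lift3, bar]
  | add p q hp hq => simp only [map_add, hp, hq]
  | mul_X p j hp =>
    simp only [map_mul, hp, rename_X]
    simp [lift3]

/-- `bar` as a map of complex algebras. -/
noncomputable def barA : Pe →ₐ[ℂ] R7 :=
  { bar with commutes' := fun c => by simp [bar, IsScalarTower.algebraMap_apply ℂ Ce Pe] }

@[simp] theorem barA_apply (z : Pe) : barA z = bar z := rfl

theorem eps_dvd_of_bar {z : Pe} (h : bar z = 0) : eps ∣ z := by
  rw [eps, C_dvd_iff_dvd_coeff]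
  intro m
  rw [Polynomial.X_dvd_iff]
  have := congrArg (coeff m) h
  simpa [bar, coeff_map] using this

theorem bar_eq_of_dvd {a b : Pe} {k : ℕ} (hk : k ≠ 0) (h : eps ^ k ∣ a - b) : bar a = bar b := by
  obtain ⟨c, hc⟩ := h
  rw [← sub_eq_zero, ← map_sub, hc, map_mul, map_pow, bar_eps, zero_pow hk, zero_mul]

theorem bar_pderiv (j : Fin 3 ⊕ Fin 4) (z : Pe) : bar (pderiv j z) = pderiv j (bar z) :=
  (pderiv_map).symm

variable (s3 : R3)

theorem bar_bigPhi (a : Fin 4) : bar (bigPhi s3 a) = rename Sum.inl (phi a) := by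
  by_cases h : a = 3 <;> simp [bigPhi, h, bar_lift3]

theorem bar_dBigPhi (i : Fin 3) (a : Fin 4) :
    bar (pderiv (Sum.inl i) (bigPhi s3 a)) = rename Sum.inl (dPhi i a) := by
  rw [bar_pderiv, bar_bigPhi, pderiv_rename Sum.inl_injective]
  rfl

theorem bar_fibD (i : Fin 3) (z : Pe) :
    bar (fibD s3 i z) =
      -∑ a, rename Sum.inl (dPhi i a) * pderiv (Sum.inr a) (bar z) := by
  induction z using MvPolynomial.induction_on with
  | C c => simp [bar]
  | add p q hp hq =>
    simp only [map_add, hp, hq, mul_add, Finset.sum_add_distrib]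
    ring
  | mul_X p j hp =>
    rw [Derivation.leibniz, smul_eq_mul, smul_eq_mul, map_add, map_mul, map_mul, map_mul, hp]
    rcases j with j | b
    · have h0 : bar (fibD s3 i (X (Sum.inl j))) = 0 := by
        rw [fibD_X_inl]; by_cases h : j = i <;> simp [h]
      rw [h0]
      simp [Fin.sum_univ_four]
      ring
    · have h1 : bar (fibD s3 i (X (Sum.inr b))) = -rename Sum.inl (dPhi i b) := by
        rw [fibD_X_inr, map_neg, bar_dBigPhi]
      rw [h1]
      fin_cases b <;> simp [Fin.sum_univ_four] <;> ring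

/-- The chain rule for a curve in affine space. -/
theorem derivative_aeval {σ S : Type*} [Fintype σ] [CommRing S] [Algebra ℂ S]
    (v : σ → Polynomial S) (p : MvPolynomial σ ℂ) :
    Polynomial.derivative (aeval v p) =
      ∑ i, aeval v (pderiv i p) * Polynomial.derivative (v i) := by
  classical
  induction p using MvPolynomial.induction_on with
  | C a => simp [IsScalarTower.algebraMap_apply ℂ S (Polynomial S)]
  | add p q hp hq => simp only [map_add, hp, hq, add_mul, Finset.sum_add_distrib]
  | mul_X p j hp =>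
    rw [map_mul, Polynomial.derivative_mul, hp, aeval_X, Finset.sum_mul,
      show aeval v p * Polynomial.derivative (v j) =
        ∑ i, if i = j then aeval v p * Polynomial.derivative (v i) else 0 by simp,
      ← Finset.sum_add_distrib]
    refine Finset.sum_congr rfl fun i _ => ?_
    by_cases h : i = j
    · subst h; simp; ring
    · simp [pderiv_X_of_ne (Ne.symm h), h]; ring

/-- The linear form `Σ m U`. -/
noncomputable def ell : R7 := ∑ a, rename Sum.inl (minors a) * X (Sum.inr a)

theorem aeval_rename_inl (v : Fin 3 ⊕ Fin 4 → Polynomial R7)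
    (hv : ∀ j, v (Sum.inl j) = Polynomial.C (X (Sum.inl j))) (r : R3) :
    aeval v (rename Sum.inl r : R7) = Polynomial.C (rename Sum.inl r) := by
  induction r using MvPolynomial.induction_on with
  | C c => simp [IsScalarTower.algebraMap_apply ℂ R7 (Polynomial R7)]
  | add p q hp hq => simp only [map_add, hp, hq]
  | mul_X p j hp => simp only [map_mul, rename_X, aeval_X, hv, hp]

/-- Moving `U` along the kernel of a linear form `m` fixes `g` if the gradient is parallel to
`m`. -/
theorem eq_moved (g τ : R7) (m : Fin 4 → R3) (base : Fin 4 → R7)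
    (hd : ∀ a, pderiv (Sum.inr a) g = rename Sum.inl (m a) * τ)
    (key : (∑ a, rename Sum.inl (m a) * (X (Sum.inr a) - base a) : R7) = 0) :
    aeval (Sum.elim (fun j => X (Sum.inl j)) base) g = g := by
  obtain ⟨v, hv⟩ : ∃ v : Fin 3 ⊕ Fin 4 → Polynomial R7,
      v = Sum.elim (fun j => Polynomial.C (X (Sum.inl j)))
        fun a => Polynomial.C (base a) + Polynomial.X * Polynomial.C (X (Sum.inr a) - base a) :=
    ⟨_, rfl⟩
  have hl : ∀ j, Polynomial.derivative (v (Sum.inl j)) = 0 := fun j => by simp [hv]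
  have hr : ∀ a, Polynomial.derivative (v (Sum.inr a)) = Polynomial.C (X (Sum.inr a) - base a) :=
    fun a => by simp [hv]
  have hder : Polynomial.derivative (aeval v g) = 0 := by
    rw [derivative_aeval, Fintype.sum_sum_type]
    simp only [hl, hr, mul_zero, Finset.sum_const_zero, zero_add, hd]
    calc _ = (∑ a, Polynomial.C (rename Sum.inl (m a) * (X (Sum.inr a) - base a))) *
          aeval v τ := by
            rw [Finset.sum_mul]
            refine Finset.sum_congr rfl fun a _ => ?_
            rw [map_mul, map_mul, aeval_rename_inl v (fun j => by rw [hv]; rfl)]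
            ring
      _ = 0 := by rw [← map_sum, key, map_zero, zero_mul]
  have h0 := Polynomial.eq_C_of_derivative_eq_zero hder
  have he : ∀ t : R7, Polynomial.eval t (aeval v g) =
      aeval (fun j => Polynomial.eval t (v j)) g := fun t =>
    comp_aeval_apply v ((Polynomial.aeval t : Polynomial R7 →ₐ[R7] R7).restrictScalars ℂ) g
  have e1 := he 1
  have e0 := he 0
  rw [h0, Polynomial.eval_C] at e0 e1
  rw [e0] at e1
  have f0 : (fun j => Polynomial.eval 0 (v j)) = Sum.elim (fun j => X (Sum.inl j)) base := by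
    funext j; rcases j with j | a <;> simp [hv]
  have f1 : (fun j => Polynomial.eval 1 (v j)) = X := by
    funext j; rcases j with j | a <;> simp [hv]
  rwa [f0, f1, aeval_X_left_apply] at e1

/-- A gradient killed by the tangent vectors is parallel to the minors. -/
theorem grad_parallel (hm : (∑ a, minors a * normalN a) = 128) {g : R7}
    (hg : ∀ i, (∑ a, rename Sum.inl (dPhi i a) * pderiv (Sum.inr a) g) = 0) (a : Fin 4) :
    pderiv (Sum.inr a) g = rename Sum.inl (minors a) * (C (1 / 128 : ℂ) *
      ∑ b, rename Sum.inl (normalN b) * pderiv (Sum.inr b) g) := by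
  have h := cross4_solve (fun b => rename Sum.inl (dPhi 0 b)) (fun b => rename Sum.inl (dPhi 1 b))
    (fun b => rename Sum.inl (dPhi 2 b)) (fun b => rename Sum.inl (normalN b))
    (fun b => pderiv (Sum.inr b) g) a
  have hc : ∀ b, cross4 (fun b => (rename Sum.inl (dPhi 0 b) : R7))
      (fun b => rename Sum.inl (dPhi 1 b)) (fun b => rename Sum.inl (dPhi 2 b)) b =
      rename Sum.inl (minors b) := fun b =>
    (map_cross4 (rename (R := ℂ) (Sum.inl (β := Fin 4))).toRingHom _ _ _ b).symm
  have hm' : (∑ a, rename Sum.inl (minors a) * rename Sum.inl (normalN a) : R7) = 128 := by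
    simpa only [map_sum, map_mul, map_ofNat] using
      congrArg (rename (R := ℂ) (Sum.inl (β := Fin 4))) hm
  have hC : (128 : R7) * C (1 / 128 : ℂ) = 1 := by
    rw [← map_ofNat (C : ℂ →+* R7) 128, ← map_mul]
    norm_num
  simp only [hg, mul_zero, sub_zero, hc, hm'] at h
  linear_combination C (1 / 128 : ℂ) * h - pderiv (Sum.inr a) g * hC

/-- Elements killed by the reduced derivations depend on `U` only through `ell`. -/
theorem eq_through_ell (hm : (∑ a, minors a * normalN a) = 128) {g : R7}
    (hg : ∀ i, (∑ a, rename Sum.inl (dPhi i a) * pderiv (Sum.inr a) g) = 0) :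
    aeval (Sum.elim (fun j => X (Sum.inl j))
      fun a => ell * rename Sum.inl (normalN a) * C (1 / 128 : ℂ)) g = g := by
  refine eq_moved g _ minors _ (grad_parallel hm hg) ?_
  have hm' : (∑ a, rename Sum.inl (minors a) * rename Sum.inl (normalN a) : R7) = 128 := by
    simpa only [map_sum, map_mul, map_ofNat] using
      congrArg (rename (R := ℂ) (Sum.inl (β := Fin 4))) hm
  have hC : (128 : R7) * C (1 / 128 : ℂ) = 1 := by
    rw [← map_ofNat (C : ℂ →+* R7) 128, ← map_mul]
    norm_num
  have h : (∑ a, rename Sum.inl (minors a) *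
      (ell * rename Sum.inl (normalN a) * C (1 / 128 : ℂ)) : R7) =
      (∑ a, rename Sum.inl (minors a) * rename Sum.inl (normalN a)) * (C (1 / 128 : ℂ) * ell) := by
    rw [Finset.sum_mul]
    exact Finset.sum_congr rfl fun a _ => by ring
  simp only [mul_sub, Finset.sum_sub_distrib]
  rw [h, hm', ← mul_assoc, hC, one_mul]
  exact sub_self _

theorem pderiv_projP (i : Fin 3) (z : Pe) :
    projP (pderiv (Sum.inl i) z) = pderiv (Sum.inl i) (projP z) := by
  induction z using MvPolynomial.induction_on with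
  | C r => simp [projP]
  | add p q hp hq => simp only [map_add, hp, hq]
  | mul_X p j hp =>
    rw [map_mul projP, pderiv_mul, pderiv_mul, map_add, map_mul, map_mul, hp]
    rcases j with j | b
    · by_cases h : j = i
      · subst h; simp [projP]
      · simp [projP, h]
    · simp [projP]

theorem mem_of_eps_pow_mul {z : Pe} (k : ℕ) (h : eps ^ k * z ∈ fibA s3) : z ∈ fibA s3 := by
  induction k with
  | zero => rwa [pow_zero, one_mul] at h
  | succ k ih => exact ih (mem_of_eps_mul s3 (by rwa [← mul_assoc, ← pow_succ']))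

theorem aeval_mem_fibA {σ : Type*} {v : σ → Pe} (hv : ∀ i, v i ∈ fibA s3)
    (p : MvPolynomial σ Ce) : aeval v p ∈ fibA s3 := by
  induction p using MvPolynomial.induction_on with
  | C c => rw [aeval_C]; exact (fibA s3).algebraMap_mem c
  | add p q hp hq => rw [map_add]; exact add_mem hp hq
  | mul_X p j hp => rw [map_mul, aeval_X]; exact mul_mem hp (hv j)

/-- Approximation of functions of `P` by members of the fibration up to fifth order. -/
theorem exists_lift (hP : PhiXGenerate) {y : Pe} (my : y ∈ fibA s3) (ny : Near 5 y)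
    (hy : eps ∣ y - lift3 (X 0)) {q : Pe} (hq : projP q = q) :
    ∀ k ≤ 5, ∃ F ∈ fibA s3, Near 5 F ∧ eps ^ k ∣ q - F
  | 0, _ => ⟨0, zero_mem _, by simp [Near], by simp⟩
  | k + 1, hk => by
    obtain ⟨F, mF, nF, c, hc⟩ := exists_lift hP my ny hy hq k (by omega)
    obtain ⟨r, hr⟩ := exists_lift3 c
    obtain ⟨G, hG⟩ := hP r
    have hm : ∀ i, (Fin.snoc (bigW s3) y : Fin 5 → Pe) i ∈ fibA s3 :=
      Fin.lastCases (by rw [Fin.snoc_last]; exact my)
        (fun i => by rw [Fin.snoc_castSucc]; exact bigW_mem s3 i)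
    have hn : ∀ i, (Fin.snoc (bigW s3) y : Fin 5 → Pe) i ∈ nearSub 5 :=
      Fin.lastCases (by rw [Fin.snoc_last]; exact ny)
        (fun i => by rw [Fin.snoc_castSucc]; exact (near_bigW s3 i).mono (by norm_num : 5 ≤ 8))
    refine ⟨F + eps ^ k * aeval (Fin.snoc (bigW s3) y : Fin 5 → Pe) G,
      add_mem mF (mul_mem (pow_mem (eps_mem s3) k) (aeval_mem_subalgebra _ hm G)),
      (nearSub 5).add_mem nF ((nearSub 5).mul_mem (pow_mem (show eps ∈ nearSub 5 by
        simp [mem_nearSub, Near]) k) (aeval_mem_subalgebra _ hn G)), ?_⟩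
    have hG' : eps ∣ aeval (Fin.snoc (bigW s3) y : Fin 5 → Pe) G - lift3 r := by
      rw [← hG, ← lift3_aeval]
      refine aeval_dvd_sub (Fin.lastCases ?_ fun i => ?_) G
      · simp only [Fin.snoc_last]; exact hy
      · simp only [Fin.snoc_castSucc]; exact bigW_sub_lift s3 i
    have hcp : eps ∣ c - projP c := by
      obtain ⟨d, hd⟩ := nF
      have h : eps ^ k * (c - projP c) = eps ^ k * (eps * (-(eps ^ (4 - k) * d))) := by
        have hc' : projP (q - F) = eps ^ k * projP c := by
          rw [hc, map_mul, map_pow, projP_eps]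
        rw [map_sub, hq] at hc'
        have h5 : eps ^ k * (eps * eps ^ (4 - k)) = eps ^ 5 := by
          rw [← pow_succ', ← pow_add]; congr 1; omega
        linear_combination hc' - hc - hd + d * h5
      exact ⟨_, mul_left_cancel₀ (pow_ne_zero k eps_ne_zero) h⟩
    obtain ⟨a, ha⟩ := hcp
    obtain ⟨b, hb⟩ := hr
    obtain ⟨e, he⟩ := hG'
    exact ⟨a + b - e, by linear_combination hc + eps ^ k * (ha + hb - he)⟩

variable (R : Fin 3 → Pe)

/-- Substituting approximations for the variables `P`. -/
noncomputable def subR : Pe →ₐ[Ce] Pe := aeval (Sum.elim R fun _ => 0)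

theorem subR_lift3 (r : R3) : subR R (lift3 r) = aeval R r := by
  induction r using MvPolynomial.induction_on with
  | C a => simp [subR, lift3, IsScalarTower.algebraMap_apply ℂ Ce Pe]
  | add p q hp hq => simp only [map_add, hp, hq]
  | mul_X p j hp =>
    rw [map_mul, map_mul, map_mul, hp, aeval_X]
    simp [subR, lift3]

theorem bar_aeval_of_bar {R : Fin 3 → Pe} (hR : ∀ j, bar (R j) = X (Sum.inl j)) (r : R3) :
    bar (aeval R r) = rename Sum.inl r := by
  induction r using MvPolynomial.induction_on with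
  | C a => simp [bar, IsScalarTower.algebraMap_apply ℂ Ce Pe]
  | add p q hp hq => simp only [map_add, hp, hq]
  | mul_X p j hp => simp only [map_mul, hp, aeval_X, hR, rename_X]

theorem subR_taylor (c : Fin 3 → Pe) (hc : ∀ j, X (Sum.inl j) - R j = eps ^ 5 * c j) {q : Pe}
    (hq : projP q = q) :
    eps ^ 10 ∣ subR R q - q + eps ^ 5 * ∑ j, projP (pderiv (Sum.inl j) q) * c j := by
  have t := taylor_dvd (S := Ce) (eps ^ 5)
    (Sum.elim (fun j => X (Sum.inl j)) fun _ => 0 : Fin 3 ⊕ Fin 4 → Pe)
    (Sum.elim (fun j => -c j) fun _ => 0) q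
  have e : (fun i => (Sum.elim (fun j => X (Sum.inl j)) fun _ => 0 : Fin 3 ⊕ Fin 4 → Pe) i +
      eps ^ 5 * Sum.elim (fun j => -c j) (fun _ => 0) i) = Sum.elim R fun _ => 0 := by
    funext i; rcases i with j | a
    · simp only [Sum.elim_inl]; linear_combination hc j
    · simp
  rw [e, Fintype.sum_sum_type, ← pow_mul, show 5 * 2 = 10 from rfl] at t
  simp only [Sum.elim_inl, Sum.elim_inr, mul_zero, Finset.sum_const_zero, add_zero] at t
  rw [show aeval (Sum.elim (fun j => X (Sum.inl j)) fun _ => 0 : Fin 3 ⊕ Fin 4 → Pe) q = q from hq]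
    at t
  simp only [subR, projP]
  obtain ⟨k, hk⟩ := t
  refine ⟨k, ?_⟩
  have hs : ∀ f : Fin 3 → Pe, (∑ j, f j * -c j) = -∑ j, f j * c j := fun f => by
    rw [Fin.sum_univ_three, Fin.sum_univ_three]; ring
  rw [hs] at hk
  linear_combination hk

/-- A member of the fibration with special value `ell`. -/
theorem exists_ell (hR : ∀ j, R j ∈ fibA s3) (c : Fin 3 → Pe)
    (hc : ∀ j, X (Sum.inl j) - R j = eps ^ 5 * c j) : ∃ L ∈ fibA s3, bar L = ell := by
  obtain ⟨dd, hdd⟩ : ∃ dd : Fin 3 → Fin 4 → Pe,
      dd = fun i a => pderiv (Sum.inl i) (bigPhi s3 a) := ⟨_, rfl⟩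
  obtain ⟨M, hM⟩ : ∃ M : Fin 4 → Pe, M = cross4 (dd 0) (dd 1) (dd 2) := ⟨_, rfl⟩
  have hs : ∀ z, subR R z ∈ fibA s3 := aeval_mem_fibA s3 (fun i => by
    rcases i with j | a
    · exact hR j
    · exact zero_mem _)
  have hpd : ∀ i a, projP (dd i a) = dd i a := fun i a => by
    rw [hdd, pderiv_projP, projP_bigPhi]
  choose e he using fun a => subR_taylor R c hc (projP_bigPhi s3 a)
  obtain ⟨Δ, hΔ⟩ : ∃ Δ : Fin 4 → Pe, ∀ a, subR R (M a) - M a = eps ^ 5 * Δ a :=
    ⟨_, fun a => (show eps ^ 5 ∣ subR R (M a) - M a by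
      have h1 : projP (M a) = M a := by
        have h := map_cross4 projP.toRingHom (dd 0) (dd 1) (dd 2) a
        simpa [hM, hpd] using h
      rw [subR]
      conv_rhs => arg 2; rw [← h1, projP]
      refine aeval_dvd_sub (fun i => ?_) _
      rcases i with j | b
      · exact ⟨-c j, by simp only [Sum.elim_inl]; linear_combination -hc j⟩
      · simp).choose_spec⟩
  obtain ⟨L, hL⟩ : ∃ L : Pe, L = ∑ a, (M a * X (Sum.inr a) + eps ^ 5 * Δ a * X (Sum.inr a) +
      eps ^ 2 * (Δ a * ∑ i, dd i a * c i) - eps ^ 2 * (subR R (M a) * e a)) := ⟨_, rfl⟩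
  have hdot : ∀ i, (∑ a, M a * dd i a) = 0 := by
    intro i
    obtain ⟨h0, h1, h2⟩ := cross4_dot (dd 0) (dd 1) (dd 2)
    rw [hM]
    fin_cases i
    · exact h0
    · exact h1
    · exact h2
  refine ⟨L, mem_of_eps_pow_mul s3 8 ?_, ?_⟩
  · have key : eps ^ 8 * L = ∑ a, subR R (M a) * (bigW s3 a - subR R (bigPhi s3 a)) := by
      have h1 : ∀ a, subR R (M a) * (bigW s3 a - subR R (bigPhi s3 a)) =
          eps ^ 8 * (M a * X (Sum.inr a) + eps ^ 5 * Δ a * X (Sum.inr a) +
            eps ^ 2 * (Δ a * ∑ i, dd i a * c i) - eps ^ 2 * (subR R (M a) * e a)) +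
          eps ^ 5 * ∑ i, M a * dd i a * c i := fun a => by
        have he' := he a
        simp only [fun i : Fin 3 => show pderiv (Sum.inl i) (bigPhi s3 a) = dd i a by rw [hdd],
          hpd] at he'
        simp only [mul_assoc, ← Finset.mul_sum]
        rw [bigW]
        linear_combination (eps ^ 8 * X (Sum.inr a) + eps ^ 5 * ∑ i, dd i a * c i) * hΔ a -
          subR R (M a) * he'
      have h2 : (∑ a, ∑ i, M a * dd i a * c i) = 0 := by
        rw [Finset.sum_comm]
        simp [← Finset.sum_mul, hdot]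
      rw [Finset.sum_congr rfl fun a _ => h1 a, Finset.sum_add_distrib, ← Finset.mul_sum,
        ← Finset.mul_sum, h2, mul_zero, add_zero, hL]
    rw [key]
    exact sum_mem fun a _ => mul_mem (hs _) (sub_mem (bigW_mem s3 a) (hs _))
  · have hb : ∀ a, bar (M a) = rename Sum.inl (minors a) := fun a => by
      rw [hM, map_cross4, hdd]
      simp only [bar_dBigPhi]
      exact (map_cross4 (rename (R := ℂ) (Sum.inl (β := Fin 4))).toRingHom _ _ _ a).symm
    simp [hL, ell, hb]

/-- The fibration has slices for a suitable parameter. -/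
theorem slices_exist (hJ : JetsGenerated) (hP : PhiXGenerate) (hT : TowerIdentities) :
    SlicesExist := by
  obtain ⟨s3, y, my, ny, hy⟩ := exists_value_x hJ hT
  have hm := minors_normalN hT.1 relH3_phi hT.2.2.1 D1_ne_zero
  have hX : ∀ j : Fin 3, ∃ F ∈ fibA s3, eps ^ 5 ∣ X (Sum.inl j) - F := fun j => by
    obtain ⟨F, mF, -, hF⟩ := exists_lift s3 hP my ny hy
      (q := X (Sum.inl j)) (by simp [projP]) 5 le_rfl
    exact ⟨F, mF, hF⟩
  choose R mR hR using hX
  choose c hc using hR
  obtain ⟨L, mL, hL⟩ := exists_ell s3 R mR c hc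
  have hbR : ∀ j, bar (R j) = X (Sum.inl j) := fun j => by
    rw [← bar_eq_of_dvd (by norm_num : (5 : ℕ) ≠ 0) ⟨c j, hc j⟩, bar_X]
  have step : ∀ (j : Fin 3) (n : ℕ), n ≤ 3 →
      ∃ F ∈ fibA s3, eps ^ (5 + n) ∣ X (Sum.inl j) - F := by
    intro j n
    induction n with
    | zero => exact fun _ => ⟨R j, mR j, c j, hc j⟩
    | succ n ih =>
      intro hn
      obtain ⟨F, mF, z, hz⟩ := ih (by omega)
      have hk : ∀ i, fibD s3 i z = eps ^ (3 - n) * if j = i then 1 else 0 := fun i => by
        refine mul_left_cancel₀ (pow_ne_zero (5 + n) eps_ne_zero) ?_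
        have h := congrArg (fibD s3 i) hz
        rw [map_sub, fibD_X_inl, mF i, sub_zero, Derivation.leibniz, Derivation.leibniz_pow,
          fibD_const] at h
        simp only [smul_eq_mul, mul_zero, smul_zero, add_zero] at h
        rw [← h, ← mul_assoc, ← pow_add, show 5 + n + (3 - n) = 8 by omega]
        simp
      have hg : ∀ i, (∑ a, rename Sum.inl (dPhi i a) * pderiv (Sum.inr a) (bar z)) = 0 := fun i => by
        have h := bar_fibD s3 i z
        rw [hk, map_mul, map_pow, bar_eps, zero_pow (by omega), zero_mul] at h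
        exact neg_eq_zero.1 h.symm
      obtain ⟨v, hv⟩ : ∃ v : Fin 3 ⊕ Fin 4 → Pe, v = Sum.elim R
          fun a => L * aeval R (normalN a) * algebraMap ℂ Pe (1 / 128) := ⟨_, rfl⟩
      have mv : ∀ i, v i ∈ fibA s3 := fun i => by
        subst hv
        rcases i with j | a
        · exact mR j
        · refine mul_mem (mul_mem mL (aeval_mem_subalgebra _ mR _)) ?_
          rw [IsScalarTower.algebraMap_apply ℂ Ce Pe]
          exact (fibA s3).algebraMap_mem _
      refine ⟨F + eps ^ (5 + n) * aeval v (bar z),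
        add_mem mF (mul_mem (pow_mem (eps_mem s3) _) (aeval_mem_subalgebra _ mv _)), ?_⟩
      obtain ⟨d, hd⟩ : eps ∣ z - aeval v (bar z) := by
        apply eps_dvd_of_bar
        have hb : barA (aeval v (bar z)) = bar z := by
          rw [comp_aeval_apply]
          convert eq_through_ell hm hg using 2
          subst hv
          congr 1
          funext i; rcases i with j | a
          · exact hbR j
          · simp [hL, bar_aeval_of_bar hbR]
            simp [bar]
        rw [map_sub, ← barA_apply (aeval v (bar z)), hb, sub_self]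
      exact ⟨d, by linear_combination hz + eps ^ (5 + n) * hd⟩
  choose F mF hF using fun j => step j 3 le_rfl
  choose Q hQ using hF
  refine ⟨s3, Q, fun i j => mul_left_cancel₀ (pow_ne_zero 8 eps_ne_zero) ?_⟩
  have h := congrArg (fibD s3 i) (hQ j)
  rw [map_sub, fibD_X_inl, mF j i, sub_zero, Derivation.leibniz, Derivation.leibniz_pow,
    fibD_const] at h
  simp only [smul_eq_mul, mul_zero, smul_zero, add_zero] at h
  rw [← h]
  by_cases hij : i = j
  · simp [hij]
  · simp [hij, Ne.symm hij]

end Vale.Agent.P295.Disproof
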