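import Vale.Agent.P295.Disproof.Cert
import Vale.Agent.P295.Disproof.Generates
import Vale.Agent.P295.Disproof.Nontrivial
import Vale.Agent.P295.Disproof.Reduction
import Vale.Agent.P295.Disproof.Slices

/-!
# The stable coordinate conjecture fails
-/

namespace Vale.Agent.P295.Disproof

theorem stable_not_coordinate : StableNotCoordinate :=
  stableNotCoordinate (slices_exist jets_generated phi_x_generate tower_identities)
    (fib_nontrivial relH_semiRigid relH_generates relH_phi)

end Vale.Agent.P295.Disproof
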