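import Vale.Agent.P295.Disproof.Defs

/-!
# Certificates

The three computational facts used by the counterexample: the identities of the tower, generation
of `C[x, y, w]` by `phi` and `x`, and of all jets along `D1 = 0` by `phi` and `fP`.
-/

namespace Vale.Agent.P295.Disproof

open MvPolynomial

set_option maxRecDepth 10000

theorem pderiv_ofNat' (i : Fin 4) (n : ℕ) [n.AtLeastTwo] :
    pderiv i (OfNat.ofNat n : R4) = 0 := (pderiv i).map_natCast n

theorem poly_ext {p q : R3} (h : ∀ v : Fin 3 → ℂ, eval v p = eval v q) : p = q :=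
  MvPolynomial.funext h

theorem cert_disc_phi : aeval phi disc = X 0 * D1 := by
  refine poly_ext fun v => ?_
  simp only [disc, map_add, map_sub, map_mul, map_pow, map_ofNat, aeval_X]
  simp [D1, phi, uP, zP, dx]
  ring

theorem phi_three : phi 3 = uP * D1 := by simp [phi]

theorem relH_aux :
    phi 2 * uP ^ 3 - 2 * X 0 * uP ^ 2 - phi 1 * X 0 ^ 2 * uP - phi 0 * X 0 ^ 3 = 0 := by
  refine poly_ext fun v => ?_
  simp [phi, uP, zP, dx]
  ring

theorem pderivT_aux :
    3 * phi 2 * uP ^ 2 - 4 * X 0 * uP - phi 1 * X 0 ^ 2 = 2 * X 0 := by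
  refine poly_ext fun v => ?_
  simp [phi, uP, zP, dx]
  ring

theorem relG_aux :
    phi 2 * (4 + 3 * phi 1 * phi 2) * uP
      - (8 + 8 * phi 1 * phi 2 + 9 * phi 0 * phi 2 ^ 2) * X 0
      = C (1 / 4 : ℂ) * X 0 ^ 4 * sigmaP * D1 := by
  refine poly_ext fun v => ?_
  simp [phi, sigmaP, D1, uP, zP, dx]
  ring

theorem normal_aux :
    (-32 - 54 * phi 0 * phi 2 ^ 2 - 36 * phi 1 * phi 2)
        * (-2 * uP ^ 2 - 2 * phi 1 * X 0 * uP - 3 * phi 0 * X 0 ^ 2)
      - X 0 ^ 3 * D1 + 2 * X 0 * N3 = 64 := by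
  refine poly_ext fun v => ?_
  simp [phi, D1, N3, uP, zP, dx]
  ring

theorem h_aux :
    (4 + 3 * phi 1 * phi 2) * uP ^ 2 + (2 * phi 1 + 9 * phi 0 * phi 2) * X 0 * uP
      + (phi 1 ^ 2 - 6 * phi 0) * X 0 ^ 2 = 4 := by
  refine poly_ext fun v => ?_
  simp [phi, uP, zP, dx]
  ring

theorem w_aux :
    (27 * phi 0 ^ 2 * phi 2 + 18 * phi 0 * phi 1 - 2 * phi 1 ^ 3) * X 0 ^ 3
      + (27 * phi 0 * phi 1 * phi 2 + 72 * phi 0 - 6 * phi 1 ^ 2) * X 0 ^ 2 * uP
      + (-54 * phi 0 * phi 2 + 18 * phi 1 ^ 2 * phi 2 + 12 * phi 1) * X 0 * uP ^ 2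
      + (27 * phi 0 * phi 2 ^ 2 + 18 * phi 1 * phi 2 + 16) * uP ^ 3 = 16 := by
  refine poly_ext fun v => ?_
  simp [phi, uP, zP, dx]
  ring

theorem psi4_phi : aeval phi psi4 = X 0 * sigmaP * D1 := by
  simp only [psi4, map_sub, map_mul, aeval_X, map_ofNat, cert_disc_phi, phi_three]
  simp [phi, sigmaP]
  ring

theorem sP_eq : 8 * sP = X 0 ^ 3 * sigmaP := by
  refine poly_ext fun v => ?_
  simp [sP]
  ring

/-- The multiplier `h`. -/
noncomputable def hMul : R4 :=
  (4 + 3 * X 1 * X 2) * X 3 ^ 2 + (2 * X 1 + 9 * X 0 * X 2) * disc * X 3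
    + (X 1 ^ 2 - 6 * X 0) * disc ^ 2

/-- The cofactor `w`. -/
noncomputable def wCof : R4 :=
  (27 * X 0 ^ 2 * X 2 + 18 * X 0 * X 1 - 2 * X 1 ^ 3) * disc ^ 3
    + (27 * X 0 * X 1 * X 2 + 72 * X 0 - 6 * X 1 ^ 2) * disc ^ 2 * X 3
    + (-54 * X 0 * X 2 + 18 * X 1 ^ 2 * X 2 + 12 * X 1) * disc * X 3 ^ 2
    + (27 * X 0 * X 2 ^ 2 + 18 * X 1 * X 2 + 16) * X 3 ^ 3

theorem tower_identities : TowerIdentities := by
  refine ⟨?_, ?_, ?_, hMul ^ 3,
    C (-1 / 2 : ℂ) * coefM * psi4 * disc ^ 2 * wCof + disc ^ 4 * psi4 ^ 3, ?_, ?_⟩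
  · simp only [relH, map_sub, map_mul, map_pow, aeval_X, map_ofNat, cert_disc_phi, phi_three]
    linear_combination D1 ^ 3 * relH_aux
  · have h3 : pderiv 3 relH = 3 * X 2 * X 3 ^ 2 - 4 * disc * X 3 - X 1 * disc ^ 2 := by
      simp [relH, disc, pderiv_ofNat' _ 2, pderiv_ofNat' _ 3, pderiv_ofNat' _ 4,
        pderiv_ofNat' _ 27, pderiv_ofNat' _ 32, pderiv_ofNat' _ 36]
      ring
    simp only [h3, relG, coefM, coefR, map_sub, map_add, map_mul, map_pow, aeval_X, map_ofNat,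
      cert_disc_phi, phi_three]
    have e : C (1 / 4 : ℂ) * (X 0 ^ 3 * sigmaP) = 2 * sP := by
      refine poly_ext fun v => ?_
      simp [sP]
      ring
    linear_combination (D1 ^ 2 * sP) * pderivT_aux - D1 * relG_aux - (D1 ^ 2 * X 0) * e
  · have h0 : pderiv 0 relH
        = (-32 - 54 * X 0 * X 2 ^ 2 - 36 * X 1 * X 2)
          * (-2 * X 3 ^ 2 - 2 * X 1 * disc * X 3 - 3 * X 0 * disc ^ 2) - disc ^ 3 := by
      simp [relH, disc, pderiv_ofNat' _ 2, pderiv_ofNat' _ 3, pderiv_ofNat' _ 4,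
        pderiv_ofNat' _ 27, pderiv_ofNat' _ 32, pderiv_ofNat' _ 36]
      ring
    have h3 : pderiv 3 relH = 3 * X 2 * X 3 ^ 2 - 4 * disc * X 3 - X 1 * disc ^ 2 := by
      simp [relH, disc, pderiv_ofNat' _ 2, pderiv_ofNat' _ 3, pderiv_ofNat' _ 4,
        pderiv_ofNat' _ 27, pderiv_ofNat' _ 32, pderiv_ofNat' _ 36]
      ring
    simp only [Fin.sum_univ_four, h0, h3, map_sub, map_neg, map_add, map_mul, map_pow, aeval_X,
      map_ofNat, cert_disc_phi, phi_three]
    simp only [normalN, Matrix.cons_val_zero, Matrix.cons_val_one, Matrix.cons_val]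
    linear_combination D1 ^ 2 * normal_aux + (D1 ^ 2 * N3) * pderivT_aux
  · simp only [hMul, map_sub, map_add, map_mul, map_pow, aeval_X, map_ofNat, cert_disc_phi, phi_three]
    calc _ = (D1 ^ 2 * ((4 + 3 * phi 1 * phi 2) * uP ^ 2
          + (2 * phi 1 + 9 * phi 0 * phi 2) * X 0 * uP
          + (phi 1 ^ 2 - 6 * phi 0) * X 0 ^ 2)) ^ 3 := by ring
      _ = _ := by rw [h_aux]; ring
  · have hh : aeval phi hMul = 4 * D1 ^ 2 := by
      simp only [hMul, map_sub, map_add, map_mul, map_pow, aeval_X, map_ofNat, cert_disc_phi, phi_three]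
      linear_combination D1 ^ 2 * h_aux
    have hw : aeval phi wCof = 16 * D1 ^ 3 := by
      simp only [wCof, map_sub, map_add, map_mul, map_pow, map_neg, aeval_X, map_ofNat, cert_disc_phi,
        phi_three]
      linear_combination D1 ^ 3 * w_aux
    simp only [map_add, map_mul, map_pow, hh, hw, fP, psi4_phi, cert_disc_phi, aeval_C]
    refine poly_ext fun v => ?_
    simp [sP]
    ring

/-- The algebra generated by `phi` and one more element. -/
noncomputable def genAlg (f : R3) : Subalgebra ℂ R3 :=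
  (aeval (Fin.snoc phi f) : MvPolynomial (Fin 5) ℂ →ₐ[ℂ] R3).range

theorem phi_mem (f : R3) (i : Fin 4) : phi i ∈ genAlg f :=
  ⟨X i.castSucc, by simp⟩

theorem last_mem (f : R3) : f ∈ genAlg f :=
  ⟨X (Fin.last 4), (aeval_X _ _).trans (Fin.snoc_last (α := fun _ => R3) f phi)⟩

theorem aeval_phi_mem (f : R3) (p : R4) : aeval phi p ∈ genAlg f :=
  ⟨rename Fin.castSucc p, (aeval_rename _ _ _).trans (by simp [Function.comp_def])⟩

theorem phi_x_generate : PhiXGenerate := by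
  have hC : ∀ c : ℂ, (C c : R3) ∈ genAlg (X 0 : R3) := (genAlg (X 0 : R3)).algebraMap_mem
  have hx : (X 0 : R3) ∈ genAlg (X 0 : R3) := last_mem _
  have h0 := phi_mem (X 0) 0
  have h1 := phi_mem (X 0) 1
  have h2 := phi_mem (X 0) 2
  have h3 := phi_mem (X 0) 3
  have hd := aeval_phi_mem (X 0) disc
  rw [cert_disc_phi] at hd
  let D : R3 := C 2 + C (1 / 8 : ℂ) * (C 12 * phi 1 * phi 2 - X 0 ^ 2 * (X 0 * D1))
  let K : R3 := phi 1 * X 0 + C 2 + C (9 / 2 : ℂ) * phi 0 * X 0 ^ 2 * D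
    + C (1 / 4 : ℂ) * phi 3 * X 0 ^ 3
  have hD : D ∈ genAlg (X 0 : R3) := by
    simp only [D]
    repeat' first
      | with_reducible assumption
      | with_reducible exact hC _
      | with_reducible apply sub_mem
      | with_reducible apply add_mem
      | with_reducible apply mul_mem
      | with_reducible apply pow_mem
      | with_reducible apply neg_mem
  have hK : K ∈ genAlg (X 0 : R3) := by
    simp only [K]
    repeat' first
      | with_reducible assumption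
      | with_reducible exact hC _
      | with_reducible apply sub_mem
      | with_reducible apply add_mem
      | with_reducible apply mul_mem
      | with_reducible apply pow_mem
      | with_reducible apply neg_mem
  have hy : (X 1 : R3) ∈ genAlg (X 0 : R3) := by
    have e : (X 1 : R3) = C (1 / 16 : ℂ) * (C 3 * phi 3 * X 0 ^ 2 + phi 1 * (C 8 - C 12 * K)
        + C 36 * phi 0 * X 0 * D) := by
      refine poly_ext fun v => ?_
      simp [K, D, phi, D1, uP, zP, dx]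
      ring
    rw [e]
    repeat' first
      | with_reducible assumption
      | with_reducible exact hC _
      | with_reducible apply sub_mem
      | with_reducible apply add_mem
      | with_reducible apply mul_mem
      | with_reducible apply pow_mem
      | with_reducible apply neg_mem
  have hu : uP ∈ genAlg (X 0 : R3) := add_mem (one_mem _) (mul_mem hx hy)
  have hz : zP ∈ genAlg (X 0 : R3) := by
    have e : zP = (C 1 - X 0 * X 1 + X 0 ^ 2 * X 1 ^ 2) ^ 3
          * (C (1 / 2 : ℂ) * phi 0 - X 1 ^ 2 * uP * (C 4 + C 3 * X 0 * X 1))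
        - (C 3 * X 1 ^ 3 + C 3 * X 0 ^ 3 * X 1 ^ 6 + X 0 ^ 6 * X 1 ^ 9)
          * (C 2 * X 0 - C 3 * X 0 ^ 2 * X 1 - phi 2) := by
      refine poly_ext fun v => ?_
      simp [phi, uP, zP, dx]
      ring
    rw [e]
    repeat' first
      | with_reducible assumption
      | with_reducible exact hC _
      | with_reducible apply sub_mem
      | with_reducible apply add_mem
      | with_reducible apply mul_mem
      | with_reducible apply pow_mem
      | with_reducible apply neg_mem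
  have hw : (X 2 : R3) ∈ genAlg (X 0 : R3) := by
    let t : R3 := zP + C (63 / 16 : ℂ) * X 1 ^ 2
    have ht : t ∈ genAlg (X 0 : R3) := add_mem hz (mul_mem (hC _) (pow_mem hy 2))
    have e : (X 2 : R3) = C (1 / 64 : ℂ) * (C (621 / 2 : ℂ) * X 1 ^ 3 - phi 3
        + C 36 * X 0 ^ 4 * X 1 ^ 3 * t ^ 2 + C (-567 / 2 : ℂ) * X 0 ^ 4 * X 1 ^ 5 * t
        + C 108 * X 0 ^ 3 * X 1 ^ 2 * t ^ 2 + C (35721 / 64 : ℂ) * X 0 ^ 4 * X 1 ^ 7
        + C (-1269 / 2 : ℂ) * X 0 ^ 3 * X 1 ^ 4 * t + C 108 * X 0 ^ 2 * X 1 * t ^ 2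
        + C (52731 / 64 : ℂ) * X 0 ^ 3 * X 1 ^ 6 + C (-693 / 2 : ℂ) * X 0 ^ 2 * X 1 ^ 3 * t
        + C 36 * X 0 * t ^ 2 + C (891 / 64 : ℂ) * X 0 ^ 2 * X 1 ^ 5
        + C (-39 / 2 : ℂ) * X 0 * X 1 ^ 2 * t + C (3753 / 64 : ℂ) * X 0 * X 1 ^ 4
        + C (-88 : ℂ) * X 1 * t) := by
      refine poly_ext fun v => ?_
      simp [t, phi, D1, uP, zP]
      ring
    rw [e]
    repeat' first
      | with_reducible assumption
      | with_reducible exact hC _
      | with_reducible apply sub_mem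
      | with_reducible apply add_mem
      | with_reducible apply mul_mem
      | with_reducible apply pow_mem
      | with_reducible apply neg_mem
  intro r
  have htop : (⊤ : Subalgebra ℂ R3) ≤ genAlg (X 0 : R3) := by
    rw [← adjoin_range_X]
    refine Algebra.adjoin_le ?_
    rintro _ ⟨i, rfl⟩
    fin_cases i
    exacts [hx, hy, hw]
  exact htop Algebra.mem_top

/-- `4 + 3 b d` along `phi`. -/
noncomputable def H1 : R3 := aeval phi (4 + 3 * X 1 * X 2 : R4)

theorem sigma_sq : sigmaP ^ 2 - 4 * H1 = D1 * (C (-3 / 4 : ℂ) * X 0 ^ 3) := by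
  refine poly_ext fun v => ?_
  simp only [H1, map_add, map_sub, map_mul, map_pow, map_ofNat, aeval_X]
  simp [sigmaP, D1, phi, uP, zP, dx]
  ring

theorem H1_x : H1 * X 0 - 2 * phi 2 = D1 * (C (1 / 4 : ℂ) * X 0 ^ 4) := by
  refine poly_ext fun v => ?_
  simp only [H1, map_add, map_sub, map_mul, map_pow, map_ofNat, aeval_X]
  simp [D1, phi, uP, zP, dx]
  ring

theorem z3_eq : 27 * phi 0 * phi 2 ^ 2 + 6 * H1 - 8 - H1 * sigmaP
    = D1 * (C (9 / 4 : ℂ) * X 0 ^ 7 * X 1 * X 2 + C (-567 / 64 : ℂ) * X 0 ^ 6 * X 1 ^ 3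
      + C (9 / 4 : ℂ) * X 0 ^ 6 * X 2 + C (-135 / 64 : ℂ) * X 0 ^ 5 * X 1 ^ 2
      + C (9 / 4 : ℂ) * X 0 ^ 4 * X 1 + C (-3 : ℂ) * X 0 ^ 3) := by
  refine poly_ext fun v => ?_
  simp only [H1, map_add, map_sub, map_mul, map_pow, map_ofNat, aeval_X]
  simp [sigmaP, D1, phi, uP, zP, dx]
  ring

/-- An inverse of `H1` modulo `D1` in the generated algebra. -/
theorem exists_inverse : ∃ I ∈ genAlg fP, D1 ∣ H1 * I - 1 := by
  let S := genAlg fP
  let P : R3 := -81 * (8 * fP) * phi 1 ^ 4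
  let Z : R3 := 27 * phi 0 * phi 2 ^ 2 + 6 * H1 - 8
  let N : R3 := P * H1 ^ 2 + 8 * Z * (256 - 96 * H1 + 16 * H1 ^ 2 - H1 ^ 3)
  let J : R3 := P * N + 65536 * (256 - 96 * H1 + 16 * H1 ^ 2 - H1 ^ 3)
  have hn : ∀ n : ℕ, (n : R3) ∈ S := fun n => natCast_mem S n
  have hH : H1 ∈ S := aeval_phi_mem _ _
  have hP : P ∈ S := mul_mem (mul_mem (neg_mem (hn 81)) (mul_mem (hn 8) (last_mem _)))
    (pow_mem (phi_mem _ _) 4)
  have hZ : Z ∈ S := sub_mem (add_mem (mul_mem (mul_mem (hn 27) (phi_mem _ _))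
    (pow_mem (phi_mem _ _) 2)) (mul_mem (hn 6) hH)) (hn 8)
  have hQ : (256 - 96 * H1 + 16 * H1 ^ 2 - H1 ^ 3 : R3) ∈ S :=
    sub_mem (add_mem (sub_mem (hn 256) (mul_mem (hn 96) hH)) (mul_mem (hn 16) (pow_mem hH 2)))
      (pow_mem hH 3)
  have hN : N ∈ S := add_mem (mul_mem hP (pow_mem hH 2)) (mul_mem (mul_mem (hn 8) hZ) hQ)
  refine ⟨C (1 / 16777216 : ℂ) * J, mul_mem (S.algebraMap_mem _)
    (add_mem (mul_mem hP hN) (mul_mem (hn 65536) hQ)), ?_⟩
  have hJ : D1 ∣ H1 * J - 16777216 := by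
    obtain ⟨π, hπ⟩ : ∃ π, π = Ideal.Quotient.mk (Ideal.span {D1}) := ⟨_, rfl⟩
    have hD : π D1 = 0 := by
      rw [hπ]
      exact Ideal.Quotient.eq_zero_iff_mem.2 (Ideal.mem_span_singleton_self D1)
    have e1 := congrArg π sigma_sq
    have e2 := congrArg π H1_x
    have e3 := congrArg π z3_eq
    have e4 : π H1 = 4 + 3 * π (phi 1) * π (phi 2) := by
      simp only [H1, map_add, map_mul, map_ofNat, aeval_X]
    have e5 : π (8 * fP) = -(π (aeval phi coefM) * π (X 0 ^ 3 * sigmaP)) := by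
      have : 8 * fP = 8 * (X 0 * sigmaP * sP ^ 2) * D1 - aeval phi coefM * (X 0 ^ 3 * sigmaP) := by
        rw [← sP_eq, fP, psi4_phi]; ring
      rw [this, map_sub, map_mul, hD, mul_zero, zero_sub, map_mul]
    have e6 : π (aeval phi coefM) = π (phi 2) * π H1 := by
      rw [← map_mul, coefM, H1, map_mul, aeval_X]
    simp only [map_sub, map_mul, map_pow, map_ofNat, hD, zero_mul, map_add] at e1 e2 e3
    rw [← Ideal.mem_span_singleton, ← Ideal.Quotient.eq_zero_iff_mem, ← hπ]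
    have hP' : π P = 81 * (π (phi 2) * π H1) * (π (X 0) ^ 3 * π sigmaP) * π (phi 1) ^ 4 := by
      rw [show P = -81 * (8 * fP) * phi 1 ^ 4 from rfl, map_mul, map_mul, e5, e6]
      simp only [map_neg, map_ofNat, map_mul, map_pow]
      ring
    have hZ' : π Z = π H1 * π sigmaP := by
      simp only [Z, map_sub, map_add, map_mul, map_pow, map_ofNat]
      linear_combination e3
    -- cubes of the congruence `H1 x = 2 d`
    have hcube : (π H1 * π (X 0)) ^ 3 = 8 * π (phi 2) ^ 3 := by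
      rw [sub_eq_zero.1 e2]; ring
    have hsq : π sigmaP ^ 2 = 4 * π H1 := sub_eq_zero.1 e1
    have hv : 81 * (π (phi 1) * π (phi 2)) ^ 4 = (π H1 - 4) ^ 4 := by rw [e4]; ring
    have hN' : π N = 2048 * π sigmaP := by
      simp only [N, map_add, map_mul, map_sub, map_pow, map_ofNat, hP', hZ']
      linear_combination (81 * π (phi 2) * π sigmaP * π (phi 1) ^ 4) * hcube
        + (8 * π sigmaP) * hv
    simp only [J, map_add, map_mul, map_sub, map_pow, map_ofNat, hP', hN']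
    linear_combination (81 * 2048 * π (phi 2) * π H1 ^ 2 * π (X 0) ^ 3 * π (phi 1) ^ 4) * hsq
      + (81 * 8192 * π (phi 2) * π (phi 1) ^ 4) * hcube + 65536 * hv
  have e : H1 * (C (1 / 16777216 : ℂ) * J) - 1
      = C (1 / 16777216 : ℂ) * (H1 * J - 16777216) := by
    refine poly_ext fun v => ?_
    simp
    ring
  rw [e]
  exact dvd_mul_of_dvd_right hJ _

/-- Inverses of `H1` modulo every power of `D1`. -/
theorem exists_inverse_pow (k : ℕ) : ∃ I ∈ genAlg fP, D1 ^ k ∣ H1 * I - 1 := by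
  obtain ⟨I, hI, hd⟩ := exists_inverse
  have hH : H1 ∈ genAlg fP := aeval_phi_mem _ _
  induction k with
  | zero => exact ⟨0, zero_mem _, by simp⟩
  | succ k ih =>
    obtain ⟨J, hJ, hJd⟩ := ih
    refine ⟨I + J - H1 * I * J, sub_mem (add_mem hI hJ) (mul_mem (mul_mem hH hI) hJ), ?_⟩
    rw [show H1 * (I + J - H1 * I * J) - 1 = -((H1 * J - 1) * (H1 * I - 1)) by ring,
      dvd_neg, pow_succ]
    exact mul_dvd_mul hJd hd

theorem root_eq : aeval phi disc * X 0 ^ 3 - 4 * H1 * X 0 + 8 * phi 2 = 0 := by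
  refine poly_ext fun v => ?_
  simp only [disc, H1, map_add, map_sub, map_mul, map_pow, map_ofNat, aeval_X]
  simp [phi, uP, zP, dx]
  ring

/-- `x` modulo every power of `D1`. -/
theorem exists_x (k : ℕ) : ∃ Xk ∈ genAlg fP, D1 ^ k ∣ X 0 - Xk := by
  induction k with
  | zero => exact ⟨0, zero_mem _, by simp⟩
  | succ k ih =>
    obtain ⟨Xk, hX, hXd⟩ := ih
    obtain ⟨I, hI, hId⟩ := exists_inverse_pow (k + 1)
    refine ⟨C (1 / 4 : ℂ) * ((aeval phi disc * Xk ^ 3 + 8 * phi 2) * I),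
      mul_mem ((genAlg fP).algebraMap_mem _) (mul_mem (add_mem
        (mul_mem (aeval_phi_mem _ _) (pow_mem hX 3))
        (mul_mem (natCast_mem _ 8) (phi_mem _ _))) hI), ?_⟩
    have e : X 0 - C (1 / 4 : ℂ) * ((aeval phi disc * Xk ^ 3 + 8 * phi 2) * I)
        = C (1 / 4 : ℂ) * ((X 0 - Xk) * D1
              * (X 0 * (X 0 ^ 2 + X 0 * Xk + Xk ^ 2) * I)
            - 4 * (H1 * I - 1) * X 0) := by
      have h4 : (X 0 : R3) = C (1 / 4 : ℂ) * (4 * X 0) := by
        refine poly_ext fun v => ?_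
        simp
      have hr := root_eq
      rw [cert_disc_phi] at hr ⊢
      linear_combination h4 + (C (1 / 4 : ℂ) * (-I)) * hr
    rw [e, pow_succ]
    exact dvd_mul_of_dvd_right (dvd_sub (dvd_mul_of_dvd_left (mul_dvd_mul hXd dvd_rfl) _)
      (dvd_mul_of_dvd_left (dvd_mul_of_dvd_right (by rw [← pow_succ]; exact hId) _) _)) _

/-- The elements congruent to the generated algebra modulo `D1 ^ k`. -/
noncomputable def nearAlg (k : ℕ) : Subalgebra ℂ R3 where
  carrier := {r | ∃ g ∈ genAlg fP, D1 ^ k ∣ r - g}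
  mul_mem' := by
    rintro r r' ⟨g, hg, hd⟩ ⟨g', hg', hd'⟩
    refine ⟨g * g', mul_mem hg hg', ?_⟩
    rw [show r * r' - g * g' = (r - g) * r' + g * (r' - g') by ring]
    exact dvd_add (dvd_mul_of_dvd_left hd _) (dvd_mul_of_dvd_right hd' _)
  add_mem' := by
    rintro r r' ⟨g, hg, hd⟩ ⟨g', hg', hd'⟩
    refine ⟨g + g', add_mem hg hg', ?_⟩
    rw [show r + r' - (g + g') = (r - g) + (r' - g') by ring]
    exact dvd_add hd hd'
  algebraMap_mem' c := ⟨algebraMap ℂ R3 c, (genAlg fP).algebraMap_mem c, by simp⟩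

theorem jets_generated : JetsGenerated := by
  intro r k
  obtain ⟨G, hG⟩ := phi_x_generate r
  have hle : (aeval (Fin.snoc phi (X 0)) : MvPolynomial (Fin 5) ℂ →ₐ[ℂ] R3).range ≤ nearAlg k := by
    rw [← Algebra.adjoin_range_eq_range_aeval]
    refine Algebra.adjoin_le ?_
    rintro _ ⟨i, rfl⟩
    induction i using Fin.lastCases with
    | last => rw [Fin.snoc_last (α := fun _ => R3) (X 0 : R3) phi]; exact exists_x k
    | cast i => exact ⟨phi i, phi_mem _ _, by simp⟩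
  obtain ⟨g, ⟨G', hG'⟩, hd⟩ := hle ⟨G, hG⟩
  exact ⟨G', by rw [← hG'] at hd; exact hd⟩

end Vale.Agent.P295.Disproof
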