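import Vale.Agent.P295.Disproof.Values

/-!
# Generalised cross product and the normal vector of `phi`
-/

namespace Vale.Agent.P295.Disproof

open MvPolynomial

variable {B : Type*} [CommRing B]

/-- A three by three minor of the matrix with columns `p, q, r`. -/
def minor3 (p q r : Fin 4 → B) (i j k : Fin 4) : B :=
  p i * (q j * r k - q k * r j) - p j * (q i * r k - q k * r i) + p k * (q i * r j - q j * r i)

/-- The vector of signed maximal minors. -/
def cross4 (p q r : Fin 4 → B) : Fin 4 → B :=
  ![-minor3 p q r 1 2 3, minor3 p q r 0 2 3, -minor3 p q r 0 1 3, minor3 p q r 0 1 2]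

theorem cross4_dot (p q r : Fin 4 → B) :
    (∑ a, cross4 p q r a * p a) = 0 ∧ (∑ a, cross4 p q r a * q a) = 0 ∧
      (∑ a, cross4 p q r a * r a) = 0 := by
  refine ⟨?_, ?_, ?_⟩ <;> simp [Fin.sum_univ_four, cross4, minor3] <;> ring

theorem cross4_solve (p q r n v : Fin 4 → B) (a : Fin 4) :
    (∑ b, cross4 p q r b * n b) * v a =
      cross4 p q r a * (∑ b, n b * v b) - cross4 n q r a * (∑ b, p b * v b) -
        cross4 p n r a * (∑ b, q b * v b) - cross4 p q n a * (∑ b, r b * v b) := by
  fin_cases a <;> simp [Fin.sum_univ_four, cross4, minor3] <;> ring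

theorem map_cross4 {C : Type*} [CommRing C] (f : B →+* C) (p q r : Fin 4 → B) (a : Fin 4) :
    f (cross4 p q r a) = cross4 (fun b => f (p b)) (fun b => f (q b)) (fun b => f (r b)) a := by
  fin_cases a <;> simp [cross4, minor3]

/-- The partial derivatives of `phi` in direction `i`. -/
noncomputable def dPhi (i : Fin 3) (a : Fin 4) : R3 := pderiv i (phi a)

/-- The signed minors of the Jacobian matrix of `phi`. -/
noncomputable def minors : Fin 4 → R3 := cross4 (dPhi 0) (dPhi 1) (dPhi 2)

theorem pderiv_ofNat (i : Fin 3) (n : ℕ) [n.AtLeastTwo] :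
    pderiv i (ofNat(n) : R3) = 0 := by
  rw [← map_ofNat (C : ℂ →+* R3) n, pderiv_C]

set_option maxRecDepth 2000 in
theorem minors_three : minors 3 = 4 * X 0 := by
  apply MvPolynomial.funext
  intro v
  have hz : ∀ i, pderiv i zP = C (-63 / 16 : ℂ) * (2 * X 1 * if i = 1 then 1 else 0) +
      ((if i = 0 then X 2 else 0) + if i = 2 then X 0 else 0) := fun i => by
    fin_cases i <;> simp [zP, pderiv_ofNat]
  simp only [minors, cross4, minor3, dPhi, phi, uP, dx, hz, Matrix.cons_val, Fin.isValue,
    map_add, map_sub, map_neg, pderiv_mul, pderiv_pow, pderiv_X_self, pderiv_C, pderiv_one,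
    pderiv_ofNat, pderiv_X_of_ne, ne_eq, not_false_eq_true, Fin.reduceEq, if_true, if_false,
    eval_mul, eval_X, eval_C, map_mul, map_pow, map_ofNat, map_one, map_zero, map_natCast]
  simp only [zP, map_add, map_mul, map_pow, eval_X, eval_C]
  ring

set_option maxRecDepth 2000 in
theorem disc_phi_x : aeval phi disc = X 0 * D1 := by
  apply MvPolynomial.funext
  intro v
  simp only [disc, phi, uP, zP, dx, D1, aeval_X, map_add, map_sub, map_neg, map_mul, map_pow,
    map_ofNat, map_one, Matrix.cons_val, Fin.isValue, eval_X, eval_C]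
  ring

theorem D1_ne_zero : D1 ≠ 0 := by
  intro h
  have := congrArg (eval ![0, 0, 1]) h
  simp [D1] at this

set_option maxRecDepth 2000 in
theorem relH3_phi : aeval phi (pderiv 3 relH) = 2 * X 0 * D1 ^ 2 := by
  rw [pderiv_three_relH]
  simp only [map_sub, map_mul, map_pow, map_ofNat, aeval_X, disc_phi_x]
  simp only [phi, Matrix.cons_val, Fin.isValue]
  have key : X 0 * dx * (3 * uP ^ 2) - 4 * (X 0 * uP) -
      (-(X 1 + 3 * X 0 * uP ^ 2 * zP + 3 * X 0 * X 1 ^ 2 * (4 + 3 * X 0 * X 1))) * X 0 ^ 2 =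
      (2 * X 0 : R3) := by
    unfold dx uP
    ring
  linear_combination D1 ^ 2 * key

theorem pderiv_aeval_phi (i : Fin 3) (p : R4) :
    pderiv i (aeval phi p) = ∑ a, aeval phi (pderiv a p) * dPhi i a := by
  induction p using MvPolynomial.induction_on with
  | C c => simp
  | add p q hp hq => simp only [map_add, hp, hq, add_mul, Finset.sum_add_distrib]
  | mul_X p j hp =>
    rw [map_mul, aeval_X, pderiv_mul, hp]
    fin_cases j <;> simp [Fin.sum_univ_four, dPhi] <;> ring

theorem minors_normalN (hH : aeval phi relH = 0)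
    (hA : aeval phi (pderiv 3 relH) = 2 * X 0 * D1 ^ 2)
    (hN : (∑ a, aeval phi (pderiv a relH) * normalN a) = 64 * D1 ^ 2) (hD : D1 ≠ 0) :
    (∑ a, minors a * normalN a) = 128 := by
  have ho : ∀ i, (∑ a, dPhi i a * aeval phi (pderiv a relH)) = 0 := fun i => by
    rw [Finset.sum_congr rfl fun a _ => mul_comm (dPhi i a) (aeval phi (pderiv a relH)),
      ← pderiv_aeval_phi, hH, map_zero]
  have h := cross4_solve (dPhi 0) (dPhi 1) (dPhi 2) normalN (fun a => aeval phi (pderiv a relH)) 3
  rw [ho, ho, ho, Finset.sum_congr rfl fun b _ => mul_comm (normalN b) (aeval phi (pderiv b relH)),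
    hN, hA] at h
  have hx : (2 * X 0 * D1 ^ 2 : R3) ≠ 0 :=
    mul_ne_zero (mul_ne_zero two_ne_zero (X_ne_zero 0)) (pow_ne_zero 2 hD)
  apply mul_right_cancel₀ hx
  have h3 := minors_three
  unfold minors at h3 ⊢
  rw [h3] at h
  linear_combination h

end Vale.Agent.P295.Disproof
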