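import Vale.Agent.P295.Disproof.Defs

/-!
# The fibration inside `C[e, 1/e][W]`
-/

namespace Vale.Agent.P295.Disproof

open MvPolynomial

variable (s3 : R3)

theorem aeval_X_inl (q : MvPolynomial (Fin 3) Ce) :
    aeval (fun j => (X (Sum.inl j) : Pe)) q = rename Sum.inl q :=
  DFunLike.congr_fun (MvPolynomial.algHom_ext (fun j => by simp)
    : aeval (fun j => (X (Sum.inl j) : Pe)) = rename (R := Ce) Sum.inl) q

theorem bigPhi_mem (a : Fin 4) :
    bigPhi s3 a ∈ (rename (R := Ce) (Sum.inl : Fin 3 → Fin 3 ⊕ Fin 4)).range := by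
  have hl : ∀ r : R3, lift3 r ∈ (rename (R := Ce) (Sum.inl : Fin 3 → Fin 3 ⊕ Fin 4)).range := by
    intro r
    induction r using MvPolynomial.induction_on with
    | C c => exact ⟨C (Polynomial.C c), by simp [lift3]⟩
    | add p q hp hq => rw [map_add]; exact add_mem hp hq
    | mul_X p j hp =>
      rw [map_mul]
      exact mul_mem hp ⟨X j, by simp [lift3]⟩
  have he : eps ∈ (rename (R := Ce) (Sum.inl : Fin 3 → Fin 3 ⊕ Fin 4)).range :=
    ⟨C Polynomial.X, by simp [eps]⟩
  unfold bigPhi
  refine add_mem (add_mem (hl _) ?_) (mul_mem (pow_mem he 3) (hl _))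
  split_ifs
  · exact mul_mem he (hl _)
  · exact zero_mem _

theorem fibD_inl (i j : Fin 3) :
    fibD s3 i (X (Sum.inl j)) = if j = i then eps ^ 8 else 0 := by
  simp [fibD, mkDerivation_X]

theorem fibD_inr (i : Fin 3) (a : Fin 4) :
    fibD s3 i (X (Sum.inr a)) = -pderiv (Sum.inl i) (bigPhi s3 a) := by
  simp [fibD, mkDerivation_X]

theorem fibD_eps (i : Fin 3) : fibD s3 i eps = 0 := derivation_C _ _

theorem fibD_eps_pow (i : Fin 3) (n : ℕ) : fibD s3 i (eps ^ n) = 0 := by
  rw [Derivation.leibniz_pow, fibD_eps, smul_zero, smul_zero]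

theorem fibD_rename_inl (i : Fin 3) (q : MvPolynomial (Fin 3) Ce) :
    fibD s3 i (rename Sum.inl q) = eps ^ 8 * pderiv (Sum.inl i) (rename Sum.inl q) := by
  induction q using MvPolynomial.induction_on with
  | C c => simp
  | add p q hp hq => simp [hp, hq, mul_add]
  | mul_X p j hp =>
    rw [map_mul, rename_X, Derivation.leibniz, hp, fibD_inl, pderiv_mul]
    by_cases h : j = i
    · subst h
      simp
      ring
    · simp [h, pderiv_X_of_ne]
      ring

theorem fibD_bigW (i : Fin 3) (a : Fin 4) : fibD s3 i (bigW s3 a) = 0 := by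
  obtain ⟨q, (hq : rename Sum.inl q = _)⟩ := bigPhi_mem s3 a
  rw [bigW, map_add, Derivation.leibniz, fibD_eps_pow, fibD_inr, ← hq]
  change fibD s3 i (rename Sum.inl q) + _ = 0
  rw [fibD_rename_inl, smul_eq_mul, smul_zero, add_zero]
  ring

/-- The substitution `U ↦ W`. -/
noncomputable def subW : Pe →ₐ[Ce] Pe :=
  aeval (Sum.elim (fun j => X (Sum.inl j)) (bigW s3))

theorem subW_rename_inl (q : MvPolynomial (Fin 3) Ce) :
    subW s3 (rename Sum.inl q) = rename Sum.inl q := by
  rw [subW, aeval_rename, Sum.elim_comp_inl]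
  exact aeval_X_inl q

theorem fibD_subW (i : Fin 3) (G : Pe) :
    fibD s3 i (subW s3 G) = eps ^ 8 * subW s3 (pderiv (Sum.inl i) G) := by
  induction G using MvPolynomial.induction_on with
  | C c => simp [subW]
  | add p q hp hq => simp [hp, hq, mul_add]
  | mul_X p k hp =>
    rw [pderiv_mul, map_mul (subW s3), map_add, map_mul (subW s3), map_mul (subW s3),
      Derivation.leibniz, hp]
    rcases k with j | a
    · by_cases h : j = i
      · subst h
        simp [subW, fibD_inl]
        ring
      · simp [subW, fibD_inl, h, pderiv_X_of_ne]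
        ring
    · simp [subW, fibD_bigW, pderiv_X_of_ne]
      ring

theorem subW_injective : Function.Injective (subW s3) := by
  classical
  let S : Pe →ₐ[Ce] Pe := aeval (Sum.elim (fun j => X (Sum.inl j))
    fun a => eps ^ 8 * X (Sum.inr a))
  let T : Pe →ₐ[Ce] Pe := aeval (Sum.elim (fun j => X (Sum.inl j))
    fun a => X (Sum.inr a) + bigPhi s3 a)
  let T' : Pe →ₐ[Ce] Pe := aeval (Sum.elim (fun j => X (Sum.inl j))
    fun a => X (Sum.inr a) - bigPhi s3 a)
  have hfix : ∀ (v : Fin 4 → Pe) (b : Fin 4),
      aeval (Sum.elim (fun j => X (Sum.inl j)) v) (bigPhi s3 b) = bigPhi s3 b := fun v b => by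
    obtain ⟨q, (hq : rename Sum.inl q = _)⟩ := bigPhi_mem s3 b
    rw [← hq]
    change aeval _ (rename Sum.inl q) = rename Sum.inl q
    rw [aeval_rename, Sum.elim_comp_inl]
    exact aeval_X_inl q
  have hST : subW s3 = S.comp T := MvPolynomial.algHom_ext fun k => by
    rcases k with j | a
    · simp [subW, S, T]
    · simp [subW, S, T, bigW, hfix, add_comm, -aeval_eq_bind₁]
  have hT : ∀ p, T' (T p) = p := fun p => by
    have : T'.comp T = AlgHom.id Ce Pe := MvPolynomial.algHom_ext fun k => by
      rcases k with j | a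
      · simp [T, T']
      · simp [T, T', hfix, -aeval_eq_bind₁]
    exact DFunLike.congr_fun this p
  have hcoeff : ∀ (G : Pe) (m : Fin 3 ⊕ Fin 4 →₀ ℕ),
      coeff m (S G) = Polynomial.X ^ (8 * ∑ a : Fin 4, m (Sum.inr a)) * coeff m G := by
    intro G m
    induction G using MvPolynomial.induction_on' with
    | add p q hp hq => simp [hp, hq, mul_add]
    | monomial n c =>
      have hn : S (monomial n c) = monomial n (c * Polynomial.X ^ (8 * ∑ a : Fin 4, n (Sum.inr a))) := by
        rw [show S (monomial n c) = _ from aeval_monomial _ n c, monomial_eq (s := n), map_mul,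
          mul_assoc]
        congr 1
        rw [Finsupp.prod_fintype _ _ (fun k => pow_zero _), Finsupp.prod_fintype _ _ (fun k => pow_zero _),
          Fintype.prod_sum_type, Fintype.prod_sum_type]
        simp only [Sum.elim_inl, Sum.elim_inr, mul_pow, Finset.prod_mul_distrib, eps, ← map_pow,
          ← pow_mul, ← map_prod, Finset.prod_pow_eq_pow_sum, Finset.mul_sum]
        ring
      rw [hn, coeff_monomial, coeff_monomial]
      by_cases h : n = m
      · subst h; simp [mul_comm]
      · simp [h]
  have hS : Function.Injective S := (injective_iff_map_eq_zero _).2 fun G hG => by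
    ext m : 1
    have := hcoeff G m
    rw [hG, coeff_zero] at this
    rw [coeff_zero]
    exact (mul_eq_zero.1 this.symm).resolve_left (pow_ne_zero _ Polynomial.X_ne_zero)
  rw [hST, AlgHom.coe_comp]
  exact hS.comp (Function.LeftInverse.injective hT)

theorem exists_subW_eq (f : Pe) : ∃ (N : ℕ) (G : Pe), subW s3 G = eps ^ N * f := by
  induction f using MvPolynomial.induction_on with
  | C c => exact ⟨0, C c, by simp [subW]⟩
  | add p q hp hq =>
    obtain ⟨N, G, hG⟩ := hp
    obtain ⟨M, G', hG'⟩ := hq
    refine ⟨N + M, eps ^ M * G + eps ^ N * G', ?_⟩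
    have he : subW s3 eps = eps := by simp [subW, eps]
    simp only [map_add, map_mul, map_pow, he, hG, hG', pow_add]
    ring
  | mul_X p k hp =>
    obtain ⟨N, G, hG⟩ := hp
    rcases k with j | a
    · exact ⟨N, G * X (Sum.inl j), by rw [map_mul, hG]; simp [subW]; ring⟩
    · refine ⟨N + 8, G * (X (Sum.inr a) - bigPhi s3 a), ?_⟩
      obtain ⟨q, (hq : rename Sum.inl q = _)⟩ := bigPhi_mem s3 a
      have hfix : subW s3 (bigPhi s3 a) = bigPhi s3 a := by rw [← hq]; exact subW_rename_inl s3 q
      rw [map_mul, map_sub, hG, hfix, pow_add]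
      simp [subW, bigW]
      ring

/-- The elements `W` in the common kernel. -/
noncomputable def kerW (a : Fin 4) : fibA s3 := ⟨bigW s3 a, fun i => fibD_bigW s3 i a⟩

/-- Evaluation at `W`, with values in the common kernel. -/
noncomputable def atW : MvPolynomial (Fin 4) Ce →ₐ[Ce] fibA s3 := aeval (kerW s3)

theorem coe_atW (G : MvPolynomial (Fin 4) Ce) :
    (atW s3 G : Pe) = subW s3 (rename Sum.inr G) := by
  induction G using MvPolynomial.induction_on with
  | C c => simp [atW, subW]
  | add p q hp hq => simp [hp, hq]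
  | mul_X p a hp =>
    rw [map_mul, map_mul, map_mul, Subalgebra.coe_mul, hp]
    simp [atW, subW, kerW]

theorem atW_injective : Function.Injective (atW s3) := fun G G' h =>
  rename_injective _ Sum.inr_injective <| subW_injective s3 <| by
    rw [← coe_atW, ← coe_atW, h]

/-- Every element of the common kernel is a polynomial in `W` after multiplying by a power of
`e`. -/
theorem exists_atW_eq (f : fibA s3) :
    ∃ (N : ℕ) (G : MvPolynomial (Fin 4) Ce), (Polynomial.X ^ N : Ce) • f = atW s3 G := by
  obtain ⟨N, G, hG⟩ := exists_subW_eq s3 f.1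
  refine ⟨N, aeval (Sum.elim (fun _ => 0) X) G, Subtype.ext ?_⟩
  have hd : ∀ i, pderiv (Sum.inl i) G = 0 := fun i => by
    refine (injective_iff_map_eq_zero _).1 (subW_injective s3) _ ?_
    have h := fibD_subW s3 i G
    rw [hG, Derivation.leibniz, f.2 i, fibD_eps_pow, smul_zero, smul_zero, add_zero] at h
    exact (mul_eq_zero.1 h.symm).resolve_left
      (pow_ne_zero _ (map_ne_zero_iff _ (C_injective _ _) |>.2 Polynomial.X_ne_zero))
  have hsupp : ∀ m ∈ G.support, ∀ i : Fin 3, m (Sum.inl i) = 0 := fun m hm i => by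
    by_contra hne
    have h := congrArg (coeff (m - Finsupp.single (Sum.inl i) 1)) (hd i)
    rw [coeff_pderiv, coeff_zero, tsub_add_cancel_of_le
      (Finsupp.single_le_iff.2 (Nat.one_le_iff_ne_zero.2 hne))] at h
    exact mem_support_iff.1 hm ((mul_eq_zero.1 h).resolve_right (Nat.cast_add_one_ne_zero _))
  have hren : rename Sum.inr (aeval (Sum.elim (fun _ => (0 : MvPolynomial (Fin 4) Ce)) X) G) = G := by
    conv_rhs => rw [as_sum G]
    conv_lhs => rw [as_sum G, map_sum, map_sum]
    refine Finset.sum_congr rfl fun m hm => ?_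
    rw [aeval_monomial, monomial_eq (s := m), map_mul, Finsupp.prod_fintype _ _ (fun k => pow_zero _),
      Finsupp.prod_fintype _ _ (fun k => pow_zero _), Fintype.prod_sum_type, Fintype.prod_sum_type]
    simp [hsupp m hm]
  rw [coe_atW, hren, hG, SetLike.val_smul, Algebra.smul_def]
  simp [eps]

end Vale.Agent.P295.Disproof
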