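import Vale.Agent.P295.Disproof.Defs

/-!
# Basic algebra for the tower of elements of the fibration
-/

namespace Vale.Agent.P295.Disproof

open MvPolynomial

/-- Second order Taylor formula. -/
theorem taylor_dvd {S B σ : Type*} [CommRing S] [CommRing B] [Algebra S B] [Fintype σ]
    (ε : B) (v δ : σ → B) (p : MvPolynomial σ S) :
    ε ^ 2 ∣ aeval (fun i => v i + ε * δ i) p - aeval v p -
      ε * ∑ i, aeval v (pderiv i p) * δ i := by
  classical
  induction p using MvPolynomial.induction_on with
  | C a => simp
  | add p q hp hq =>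
    convert dvd_add hp hq using 1
    simp [add_mul, Finset.sum_add_distrib]
    ring
  | mul_X p j hp =>
    obtain ⟨c, hc⟩ := hp
    refine ⟨c * (v j + ε * δ j) + (∑ i, aeval v (pderiv i p) * δ i) * δ j, ?_⟩
    have hs : (∑ i, aeval v (pderiv i (p * X j)) * δ i) =
        (∑ i, aeval v (pderiv i p) * δ i) * v j + aeval v p * δ j := by
      rw [Finset.sum_mul, show aeval v p * δ j = ∑ i, if i = j then aeval v p * δ i else 0 by simp,
        ← Finset.sum_add_distrib]
      refine Finset.sum_congr rfl fun i _ => ?_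
      by_cases h : i = j
      · subst h; simp; ring
      · simp [pderiv_X_of_ne (Ne.symm h), h]; ring
    rw [hs]
    simp only [map_mul, aeval_X]
    linear_combination (v j + ε * δ j) * hc

/-- The algebra map sending every `U` to zero. -/
noncomputable def projP : Pe →ₐ[Ce] Pe :=
  aeval (Sum.elim (fun j => X (Sum.inl j)) fun _ => 0)

theorem eps_ne_zero : eps ≠ 0 := by
  simp [eps, Polynomial.X_ne_zero]

@[simp] theorem projP_eps : projP eps = eps := by simp [eps, projP]

theorem projP_lift3 (r : R3) : projP (lift3 r) = lift3 r := by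
  induction r using MvPolynomial.induction_on with
  | C a => simp [lift3, projP]
  | add p q hp hq => simp [map_add, hp, hq]
  | mul_X p j hp =>
    rw [map_mul, map_mul, hp]
    simp [lift3, projP]

theorem lift3_C (c : ℂ) : lift3 (C c) = algebraMap ℂ Pe c := by
  simp [lift3, IsScalarTower.algebraMap_apply ℂ Ce Pe]

/-- `lift3` as a map of complex algebras. -/
noncomputable def lift3A : R3 →ₐ[ℂ] Pe :=
  { lift3 with commutes' := lift3_C }

@[simp] theorem lift3A_apply (r : R3) : lift3A r = lift3 r := rfl

theorem lift3_aeval {σ : Type*} (v : σ → R3) (p : MvPolynomial σ ℂ) :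
    aeval (fun i => lift3 (v i)) p = lift3 (aeval v p) :=
  (comp_aeval_apply v lift3A p).symm

theorem exists_lift3 (z : Pe) : ∃ r : R3, eps ∣ projP z - lift3 r := by
  induction z using MvPolynomial.induction_on with
  | C c =>
    refine ⟨C (c.coeff 0), ?_⟩
    have h : projP (C c) - lift3 (C (c.coeff 0)) = C (c - Polynomial.C (c.coeff 0)) := by
      simp [projP, lift3]
    obtain ⟨b, hb⟩ := Polynomial.X_dvd_sub_C (p := c)
    exact ⟨C b, by rw [h, hb, map_mul, eps]⟩
  | add p q hp hq =>
    obtain ⟨r, hr⟩ := hp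
    obtain ⟨r', hr'⟩ := hq
    refine ⟨r + r', ?_⟩
    convert dvd_add hr hr' using 1
    rw [map_add, map_add]
    ring
  | mul_X p j hp =>
    obtain ⟨r, hr⟩ := hp
    rcases j with j | a
    · refine ⟨r * X j, ?_⟩
      have hX : projP (X (Sum.inl j)) = lift3 (X j) := by simp [projP, lift3]
      rw [map_mul, map_mul, hX, ← sub_mul]
      exact dvd_mul_of_dvd_left hr _
    · exact ⟨0, by simp [projP]⟩

/-- `z` agrees with its value at `U = 0` modulo `e^k`. -/
def Near (k : ℕ) (z : Pe) : Prop := eps ^ k ∣ z - projP z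

theorem Near.mono {k l : ℕ} {z : Pe} (h : Near k z) (hl : l ≤ k) : Near l z :=
  (pow_dvd_pow eps hl).trans h

/-- The elements near their values at `U = 0` form a subalgebra. -/
noncomputable def nearSub (k : ℕ) : Subalgebra Ce Pe where
  carrier := {z | Near k z}
  mul_mem' := by
    intro a b ha hb
    have h : a * b - projP (a * b) = (a - projP a) * b + projP a * (b - projP b) := by
      rw [map_mul]; ring
    show eps ^ k ∣ _
    rw [h]
    exact dvd_add (dvd_mul_of_dvd_left ha _) (dvd_mul_of_dvd_right hb _)
  add_mem' := by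
    intro a b ha hb
    show eps ^ k ∣ _
    convert dvd_add ha hb using 1
    rw [map_add]; ring
  algebraMap_mem' r := by simp [Near]

theorem mem_nearSub {k : ℕ} {z : Pe} : z ∈ nearSub k ↔ Near k z := Iff.rfl

theorem Near.cancel {k : ℕ} {z : Pe} (h : Near (k + 1) (eps * z)) : Near k z := by
  have h' : eps * eps ^ k ∣ eps * (z - projP z) := by
    simpa [Near, map_mul, mul_sub, pow_succ, mul_comm] using h
  exact (mul_dvd_mul_iff_left eps_ne_zero).1 h'

variable (s3 : R3)

theorem fibD_const (i : Fin 3) : fibD s3 i eps = 0 := by simp [eps]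

theorem fibD_X_inl (i j : Fin 3) :
    fibD s3 i (X (Sum.inl j)) = if j = i then eps ^ 8 else 0 := by
  simp [fibD]

theorem fibD_X_inr (i : Fin 3) (a : Fin 4) :
    fibD s3 i (X (Sum.inr a)) = -pderiv (Sum.inl i) (bigPhi s3 a) := by
  simp [fibD]

theorem fibD_of_projP_eq {z : Pe} (hz : projP z = z) (i : Fin 3) :
    fibD s3 i z = eps ^ 8 * pderiv (Sum.inl i) z := by
  rw [← hz]
  generalize z = q
  induction q using MvPolynomial.induction_on with
  | C c => simp [projP]
  | add p q hp hq => rw [map_add, map_add, hp, hq, map_add, mul_add]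
  | mul_X p j hp =>
    rw [map_mul projP, Derivation.leibniz, pderiv_mul, hp]
    rcases j with j | a
    · simp only [projP, aeval_X, Sum.elim_inl, fibD_X_inl, smul_eq_mul]
      by_cases h : j = i
      · subst h; simp; ring
      · simp [h]; ring
    · simp [projP]

theorem projP_bigPhi (a : Fin 4) : projP (bigPhi s3 a) = bigPhi s3 a := by
  by_cases h : a = 3 <;> simp [bigPhi, h, projP_lift3]

theorem projP_bigW (a : Fin 4) : projP (bigW s3 a) = bigPhi s3 a := by
  rw [bigW, map_add, projP_bigPhi]
  simp [projP]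

theorem near_bigW (a : Fin 4) : Near 8 (bigW s3 a) :=
  ⟨X (Sum.inr a), by rw [projP_bigW, bigW]; ring⟩

theorem bigW_mem (a : Fin 4) : bigW s3 a ∈ fibA s3 := fun i => by
  rw [bigW, map_add, fibD_of_projP_eq s3 (projP_bigPhi s3 a), Derivation.leibniz,
    Derivation.leibniz_pow, fibD_const, fibD_X_inr]
  simp
  ring

theorem eps_mem : eps ∈ fibA s3 := fun i => fibD_const s3 i

theorem mem_of_eps_mul {z : Pe} (h : eps * z ∈ fibA s3) : z ∈ fibA s3 := fun i => by
  have := h i
  rw [Derivation.leibniz, fibD_const, smul_zero, add_zero, smul_eq_mul] at this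
  exact (mul_eq_zero.1 this).resolve_left eps_ne_zero

/-- A polynomial with complex coefficients in members of a subalgebra is a member. -/
theorem aeval_mem_subalgebra (S : Subalgebra Ce Pe) {σ : Type*} {v : σ → Pe}
    (hv : ∀ i, v i ∈ S) (p : MvPolynomial σ ℂ) : aeval v p ∈ S := by
  induction p using MvPolynomial.induction_on with
  | C c =>
    rw [aeval_C, IsScalarTower.algebraMap_apply ℂ Ce Pe]
    exact S.algebraMap_mem _
  | add p q hp hq => rw [map_add]; exact add_mem hp hq
  | mul_X p j hp => rw [map_mul, aeval_X]; exact mul_mem hp (hv j)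

end Vale.Agent.P295.Disproof
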