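import Vale.Agent.P295.Disproof.TowerBasic

/-!
# The tower of elements and the element with value `x`
-/

namespace Vale.Agent.P295.Disproof

open MvPolynomial

/-- Evaluation at congruent points gives congruent values. -/
theorem aeval_dvd_sub {S B σ : Type*} [CommRing S] [CommRing B] [Algebra S B] {c : B}
    {v w : σ → B} (h : ∀ i, c ∣ v i - w i) (p : MvPolynomial σ S) :
    c ∣ aeval v p - aeval w p := by
  induction p using MvPolynomial.induction_on with
  | C a => simp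
  | add p q hp hq => convert dvd_add hp hq using 1; simp only [map_add]; ring
  | mul_X p j hp =>
    have e : aeval v (p * X j) - aeval w (p * X j) =
        (aeval v p - aeval w p) * v j + aeval w p * (v j - w j) := by
      simp only [map_mul, aeval_X]; ring
    rw [e]
    exact dvd_add (dvd_mul_of_dvd_left hp _) (dvd_mul_of_dvd_right (h j) _)

theorem pderiv_three_relH : pderiv 3 relH =
    3 * X 2 * X 3 ^ 2 - 4 * disc * X 3 - X 1 * disc ^ 2 := by
  have hn : ∀ n : ℕ, [n.AtLeastTwo] → pderiv (3 : Fin 4) (OfNat.ofNat n : R4) = 0 := fun n _ => by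
    rw [← map_ofNat (C : ℂ →+* R4) n, pderiv_C]
  have h4 : pderiv (3 : Fin 4) disc = 0 := by simp [disc, hn]
  simp [relH, h4, hn]
  ring

theorem relH_shift {B : Type*} [CommRing B] [Algebra ℂ B] (v : Fin 4 → B) (δ : B) :
    aeval (fun a => v a + if a = 3 then δ else 0) relH = aeval v relH +
      δ * aeval v (pderiv 3 relH) + δ ^ 2 * aeval v psi4 + δ ^ 3 * v 2 := by
  rw [pderiv_three_relH]
  simp [relH, disc, psi4]
  ring

theorem relG_shift {B : Type*} [CommRing B] [Algebra ℂ B] (v : Fin 4 → B) (δ : B) :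
    aeval (fun a => v a + if a = 3 then δ else 0) relG =
      aeval v relG + δ * aeval v coefM := by
  simp [relG, disc, coefM, coefR]
  ring

variable (s3 : R3)

/-- The deformed map up to second order. -/
noncomputable def basePt (a : Fin 4) : Pe :=
  lift3 (phi a) + if a = 3 then eps * lift3 sP else 0

theorem basePt_sub (a : Fin 4) : eps ∣ basePt a - lift3 (phi a) := by
  by_cases h : a = 3 <;> simp [basePt, h]

theorem bigW_eq : bigW s3 = fun a =>
    basePt a + eps ^ 3 * (lift3 (s3 * normalN a) + eps ^ 5 * X (Sum.inr a)) := by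
  funext a
  rw [bigW, bigPhi, basePt]
  ring

theorem bigW_sub_basePt (a : Fin 4) : eps ^ 3 ∣ bigW s3 a - basePt a := by
  rw [bigW_eq]; simp

theorem bigW_sub_lift (a : Fin 4) : eps ∣ bigW s3 a - lift3 (phi a) := by
  have h := dvd_add ((dvd_pow_self eps (by norm_num : (3 : ℕ) ≠ 0)).trans (bigW_sub_basePt s3 a))
    (basePt_sub a)
  simpa using h

theorem relH_bigW (hH : aeval phi relH = 0)
    (hN : (∑ a, aeval phi (pderiv a relH) * normalN a) = 64 * D1 ^ 2) :
    eps ^ 4 ∣ aeval (bigW s3) relH -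
      (eps * lift3 (aeval phi (pderiv 3 relH) * sP) +
        eps ^ 2 * lift3 (aeval phi psi4 * sP ^ 2) +
        eps ^ 3 * lift3 (phi 2 * sP ^ 3 + 64 * D1 ^ 2 * s3)) := by
  have h1 : eps ^ 4 ∣ aeval (bigW s3) relH - aeval basePt relH -
      eps ^ 3 * ∑ a, aeval basePt (pderiv a relH) *
        (lift3 (s3 * normalN a) + eps ^ 5 * X (Sum.inr a)) := by
    have t := taylor_dvd (eps ^ 3) basePt
      (fun a => lift3 (s3 * normalN a) + eps ^ 5 * X (Sum.inr a)) relH
    rw [bigW_eq]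
    exact (pow_dvd_pow eps (by norm_num : 4 ≤ 6)).trans (by rwa [← pow_mul] at t)
  have h2 : eps ∣ (∑ a, aeval basePt (pderiv a relH) *
      (lift3 (s3 * normalN a) + eps ^ 5 * X (Sum.inr a))) - lift3 (64 * D1 ^ 2 * s3) := by
    rw [← hN, Finset.sum_mul, map_sum, ← Finset.sum_sub_distrib]
    refine Finset.dvd_sum fun a _ => ?_
    obtain ⟨c, hc⟩ := aeval_dvd_sub (S := ℂ) (basePt_sub) (pderiv a relH)
    rw [lift3_aeval] at hc
    refine ⟨c * lift3 (s3 * normalN a) +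
      aeval basePt (pderiv a relH) * eps ^ 4 * X (Sum.inr a), ?_⟩
    simp only [map_mul]
    linear_combination (lift3 s3 * lift3 (normalN a)) * hc
  have h3 : aeval basePt relH = eps * lift3 (aeval phi (pderiv 3 relH) * sP) +
      eps ^ 2 * lift3 (aeval phi psi4 * sP ^ 2) + eps ^ 3 * lift3 (phi 2 * sP ^ 3) := by
    unfold basePt
    rw [relH_shift, lift3_aeval, lift3_aeval, lift3_aeval, hH]
    simp only [map_mul, map_pow, map_zero]
    ring
  obtain ⟨c1, hc1⟩ := h1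
  obtain ⟨c2, hc2⟩ := h2
  refine ⟨c1 + c2, ?_⟩
  rw [map_add]
  linear_combination hc1 + eps ^ 3 * hc2 + h3

theorem relG_bigW : eps ^ 3 ∣ aeval (bigW s3) relG -
    (lift3 (aeval phi relG) + eps * lift3 (sP * aeval phi coefM)) := by
  have h3 : aeval basePt relG = lift3 (aeval phi relG) + eps * lift3 (sP * aeval phi coefM) := by
    unfold basePt
    rw [relG_shift, lift3_aeval, lift3_aeval, map_mul]
    ring
  rw [← h3]
  exact aeval_dvd_sub (bigW_sub_basePt s3) relG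

theorem first_order (p : R4) : eps ^ 2 ∣ aeval (bigW s3) p -
    (lift3 (aeval phi p) + eps * lift3 (sP * aeval phi (pderiv 3 p))) := by
  have h1 : eps ^ 2 ∣ aeval (bigW s3) p - aeval basePt p :=
    (pow_dvd_pow eps (by norm_num : 2 ≤ 3)).trans (aeval_dvd_sub (bigW_sub_basePt s3) p)
  have h2 := taylor_dvd eps (fun a => lift3 (phi a))
    (fun a : Fin 4 => if a = 3 then lift3 sP else 0) p
  have e : (fun i : Fin 4 => lift3 (phi i) + eps * if i = 3 then lift3 sP else 0) = basePt := by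
    funext i
    by_cases h : i = 3 <;> simp [basePt, h]
  rw [e, lift3_aeval] at h2
  simp only [mul_ite, mul_zero, Finset.sum_ite_eq', Finset.mem_univ, if_true, lift3_aeval] at h2
  convert dvd_add h1 h2 using 1
  simp only [map_mul]
  ring

theorem aeval_bigW_mem (p : R4) : aeval (bigW s3) p ∈ fibA s3 :=
  aeval_mem_subalgebra _ (bigW_mem s3) p

theorem near_aeval_bigW (p : R4) : Near 8 (aeval (bigW s3) p) :=
  aeval_mem_subalgebra (nearSub 8) (near_bigW s3) p

/-- The first two elements of the tower. -/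
theorem exists_y2 (h : TowerIdentities) : ∃ y ∈ fibA s3, Near 6 y ∧
    eps ^ 2 ∣ y - (lift3 fP + eps * lift3 (phi 2 * sP ^ 3 + 64 * D1 ^ 2 * s3)) := by
  obtain ⟨hH, hG, hN, -⟩ := h
  obtain ⟨c, hc⟩ := relH_bigW s3 hH hN
  obtain ⟨y1, hy1⟩ : ∃ y1, y1 = lift3 (aeval phi (pderiv 3 relH) * sP) +
        eps * lift3 (aeval phi psi4 * sP ^ 2) +
        eps ^ 2 * lift3 (phi 2 * sP ^ 3 + 64 * D1 ^ 2 * s3) + eps ^ 3 * c := ⟨_, rfl⟩
  have e1 : eps * y1 = aeval (bigW s3) relH := by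
    rw [hy1]; linear_combination -hc
  have m1 : y1 ∈ fibA s3 := mem_of_eps_mul s3 (e1 ▸ aeval_bigW_mem s3 relH)
  have n1 : Near 7 y1 := Near.cancel (by rw [e1]; exact near_aeval_bigW s3 relH)
  obtain ⟨g, hg⟩ := relG_bigW s3
  obtain ⟨y2, hy2⟩ : ∃ y2, y2 = lift3 fP +
      eps * lift3 (phi 2 * sP ^ 3 + 64 * D1 ^ 2 * s3) + eps ^ 2 * (c - g) := ⟨_, rfl⟩
  have e2 : eps * y2 = y1 - aeval (bigW s3) relG := by
    rw [hy2, hy1, hG]
    simp only [fP, map_sub, map_mul, map_add, map_pow] at hg ⊢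
    linear_combination hg
  refine ⟨y2, mem_of_eps_mul s3 ?_, Near.cancel ?_, ⟨c - g, ?_⟩⟩
  · rw [e2]; exact sub_mem m1 (aeval_bigW_mem s3 relG)
  · rw [e2]
    exact (nearSub 7).sub_mem n1 ((near_aeval_bigW s3 relG).mono (by norm_num))
  · rw [hy2]; ring

/-- For a suitable parameter some element of the fibration takes the value `x`. -/
theorem exists_value_x (hJ : JetsGenerated) (h : TowerIdentities) :
    ∃ s3, ∃ y ∈ fibA s3, Near 5 y ∧ eps ∣ y - lift3 (X 0) := by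
  obtain ⟨ξ, Φ0, hξ, hΦ⟩ := h.2.2.2
  obtain ⟨fixed, hfix⟩ : ∃ r : R3, r = 64 * D1 ^ 6 * (phi 2 * sP ^ 3) +
      fP * (sP * aeval phi (pderiv 3 ξ)) - sP * aeval phi (pderiv 3 Φ0) := ⟨_, rfl⟩
  obtain ⟨G, q, hq⟩ := hJ (X 0 - fixed) 8
  obtain ⟨s3, hs⟩ : ∃ s3 : R3, 64 * 64 * s3 = q :=
    ⟨C (1 / 4096 : ℂ) * q, by
      rw [show (64 * 64 : R3) = C (4096 : ℂ) by norm_num [map_ofNat], ← mul_assoc, ← map_mul]
      norm_num⟩
  obtain ⟨y2, m2, n2, c2, hc2⟩ := exists_y2 s3 h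
  obtain ⟨cx, hcx⟩ := first_order s3 ξ
  obtain ⟨cp, hcp⟩ := first_order s3 Φ0
  have hΦ' : lift3 (aeval phi ξ) * lift3 fP = lift3 (aeval phi Φ0) := by rw [← map_mul, hΦ]
  obtain ⟨Y, eY, hY⟩ : ∃ Y, eps * Y = aeval (bigW s3) ξ * y2 - aeval (bigW s3) Φ0 ∧
      eps ∣ Y - lift3 (fixed + D1 ^ 8 * q) := by
    refine ⟨lift3 (aeval phi ξ) * (lift3 (phi 2 * sP ^ 3 + 64 * D1 ^ 2 * s3) + eps * c2) +
      lift3 (sP * aeval phi (pderiv 3 ξ)) * y2 + eps * cx * y2 -
      lift3 (sP * aeval phi (pderiv 3 Φ0)) - eps * cp, ?_, ?_⟩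
    · linear_combination -(y2 * hcx) + hcp - lift3 (aeval phi ξ) * hc2 - hΦ'
    · refine ⟨lift3 (aeval phi ξ) * c2 + lift3 (sP * aeval phi (pderiv 3 ξ)) *
        (lift3 (phi 2 * sP ^ 3 + 64 * D1 ^ 2 * s3) + eps * c2) + cx * y2 - cp, ?_⟩
      rw [hξ, ← hs, hfix]
      simp only [map_sub, map_add, map_mul, map_pow, map_ofNat] at hc2 ⊢
      linear_combination (lift3 sP * lift3 (aeval phi (pderiv 3 ξ))) * hc2
  have mY : Y ∈ fibA s3 := mem_of_eps_mul s3 (by
    rw [eY]; exact sub_mem (mul_mem (aeval_bigW_mem s3 ξ) m2) (aeval_bigW_mem s3 Φ0))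
  have nY : Near 5 Y := Near.cancel (by
    rw [eY]
    exact (nearSub 6).sub_mem ((nearSub 6).mul_mem ((near_aeval_bigW s3 ξ).mono (by norm_num)) n2)
      ((near_aeval_bigW s3 Φ0).mono (by norm_num)))
  have hm : ∀ i, (Fin.snoc (bigW s3) y2 : Fin 5 → Pe) i ∈ fibA s3 :=
    Fin.lastCases (by rw [Fin.snoc_last]; exact m2)
      (fun i => by rw [Fin.snoc_castSucc]; exact bigW_mem s3 i)
  have hn : ∀ i, (Fin.snoc (bigW s3) y2 : Fin 5 → Pe) i ∈ nearSub 5 :=
    Fin.lastCases (by rw [Fin.snoc_last]; exact n2.mono (by norm_num : 5 ≤ 6))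
      (fun i => by rw [Fin.snoc_castSucc]; exact (near_bigW s3 i).mono (by norm_num : 5 ≤ 8))
  refine ⟨s3, Y + aeval (Fin.snoc (bigW s3) y2 : Fin 5 → Pe) G,
    add_mem mY (aeval_mem_subalgebra _ hm G),
    (nearSub 5).add_mem nY (aeval_mem_subalgebra _ hn G), ?_⟩
  have hG : eps ∣ aeval (Fin.snoc (bigW s3) y2 : Fin 5 → Pe) G -
      lift3 (aeval (Fin.snoc phi fP : Fin 5 → R3) G) := by
    rw [← lift3_aeval]
    refine aeval_dvd_sub (Fin.lastCases ?_ fun i => ?_) G
    · simp only [Fin.snoc_last]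
      exact ⟨lift3 (phi 2 * sP ^ 3 + 64 * D1 ^ 2 * s3) + eps * c2, by linear_combination hc2⟩
    · simp only [Fin.snoc_castSucc]
      exact bigW_sub_lift s3 i
  convert dvd_add hY hG using 1
  rw [← hq]
  simp only [map_sub, map_add]
  ring

end Vale.Agent.P295.Disproof
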